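import Mathlib

/-! # Norms, excesses over a threshold and averages over boxes -/

namespace Vale.Agent.P249.PolyLower

open Finset

variable {ι α : Type*} [Fintype ι] {p : ℝ}

/-- The `ℓ_p` norm. -/
noncomputable def nm (p : ℝ) (v : ι → ℝ) : ℝ := (∑ i, |v i| ^ p) ^ (1 / p)

/-- The part of the norm above the threshold `s`. -/
noncomputable def exc (p s : ℝ) (v : ι → ℝ) : ℝ := nm p fun i => max (|v i| - s) 0

/-- The mean of a family of vectors. -/
noncomputable def mean (S : Finset α) (F : α → ι → ℝ) : ι → ℝ :=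
  fun i => (∑ x ∈ S, F x i) / S.card

lemma nm_nonneg (v : ι → ℝ) : 0 ≤ nm p v := by unfold nm; positivity

lemma exc_nonneg (s : ℝ) (v : ι → ℝ) : 0 ≤ exc p s v := nm_nonneg _

lemma nm_rpow (hp : 1 ≤ p) (v : ι → ℝ) : nm p v ^ p = ∑ i, |v i| ^ p := by
  rw [nm, ← Real.rpow_mul (by positivity), one_div_mul_cancel (by linarith), Real.rpow_one]

lemma nm_zero (hp : 1 ≤ p) : nm p (0 : ι → ℝ) = 0 := by
  simp [nm, Real.zero_rpow (show p ≠ 0 by linarith), Real.zero_rpow (inv_ne_zero (show p ≠ 0 by linarith))]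

lemma nm_add_le (hp : 1 ≤ p) (v w : ι → ℝ) : nm p (v + w) ≤ nm p v + nm p w :=
  Real.Lp_add_le univ v w hp

lemma nm_smul (hp : 1 ≤ p) (a : ℝ) (v : ι → ℝ) : nm p (a • v) = |a| * nm p v := by
  have hp0 : p ≠ 0 := by linarith
  simp only [nm, Pi.smul_apply, smul_eq_mul, abs_mul, Real.mul_rpow (abs_nonneg _) (abs_nonneg _),
    ← mul_sum]
  rw [Real.mul_rpow (by positivity) (by positivity), ← Real.rpow_mul (abs_nonneg a),
    mul_one_div_cancel hp0, Real.rpow_one]

lemma nm_neg (v : ι → ℝ) : nm p (-v) = nm p v := by simp [nm]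

lemma nm_sub_comm (v w : ι → ℝ) : nm p (v - w) = nm p (w - v) := by rw [← nm_neg, neg_sub]

lemma nm_sub_le (hp : 1 ≤ p) (v w : ι → ℝ) : nm p (v - w) ≤ nm p v + nm p w := by
  have := nm_add_le hp v (-w)
  rwa [nm_neg, ← sub_eq_add_neg] at this

lemma nm_le_add (hp : 1 ≤ p) (v w : ι → ℝ) : nm p v ≤ nm p w + nm p (v - w) := by
  simpa using nm_add_le hp w (v - w)

lemma nm_mono (hp : 1 ≤ p) {v w : ι → ℝ} (h : ∀ i, |v i| ≤ |w i|) : nm p v ≤ nm p w := by
  refine Real.rpow_le_rpow (by positivity) (sum_le_sum fun i _ => ?_) (by positivity)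
  exact Real.rpow_le_rpow (abs_nonneg _) (h i) (by linarith)

lemma nm_sum_le (hp : 1 ≤ p) (S : Finset α) (F : α → ι → ℝ) :
    nm p (∑ x ∈ S, F x) ≤ ∑ x ∈ S, nm p (F x) := by
  classical
  induction S using Finset.induction_on with
  | empty => simp [nm_zero hp]
  | insert a S ha ih =>
    rw [sum_insert ha, sum_insert ha]
    exact (nm_add_le hp _ _).trans (by linarith)

lemma abs_le_nm (hp : 1 ≤ p) (v : ι → ℝ) (i : ι) : |v i| ≤ nm p v := by
  refine le_of_eq_of_le ?_ (Real.rpow_le_rpow (by positivity)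
    (single_le_sum (f := fun j => |v j| ^ p) (fun j _ => by positivity) (mem_univ i))
    (show 0 ≤ 1 / p by positivity))
  rw [← Real.rpow_mul (abs_nonneg _), mul_one_div_cancel (by linarith), Real.rpow_one]

lemma exc_smul (hp : 1 ≤ p) {a : ℝ} (ha : 0 ≤ a) (s : ℝ) (v : ι → ℝ) :
    exc p (a * s) (a • v) = a * exc p s v := by
  unfold exc
  rw [show a * nm p (fun i => max (|v i| - s) 0) = nm p (a • fun i => max (|v i| - s) 0) by
    rw [nm_smul hp, abs_of_nonneg ha]]
  congr 1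
  funext i
  simp only [Pi.smul_apply, smul_eq_mul, abs_mul, abs_of_nonneg ha]
  rw [← mul_sub, mul_max_of_nonneg _ _ ha, mul_zero]

lemma exc_add_le (hp : 1 ≤ p) (s : ℝ) (v w : ι → ℝ) :
    exc p s (v + w) ≤ exc p s v + nm p w := by
  have h : nm p (fun i => |w i|) = nm p w := by simp [nm]
  rw [← h]
  refine le_trans (nm_mono hp fun i => ?_) (nm_add_le hp _ _)
  simp only [Pi.add_apply]
  rw [abs_of_nonneg (le_max_right (|v i + w i| - s) 0),
    abs_of_nonneg (add_nonneg (le_max_right (|v i| - s) 0) (abs_nonneg (w i)))]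
  refine max_le ?_ (add_nonneg (le_max_right _ _) (abs_nonneg _))
  linarith [abs_add_le (v i) (w i), le_max_left (|v i| - s) 0]

lemma exc_le_add (hp : 1 ≤ p) (s : ℝ) (v w : ι → ℝ) :
    exc p s v ≤ exc p s w + nm p (v - w) := by
  simpa using exc_add_le hp s w (v - w)

lemma nm_mean_le (hp : 1 ≤ p) (S : Finset α) (F : α → ι → ℝ) :
    nm p (mean S F) ≤ (∑ x ∈ S, nm p (F x)) / S.card := by
  rw [show mean S F = (S.card : ℝ)⁻¹ • ∑ x ∈ S, F x by
    funext i; simp [mean, div_eq_inv_mul, Finset.sum_apply], nm_smul hp,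
    abs_of_nonneg (by positivity), div_eq_inv_mul]
  gcongr
  exact nm_sum_le hp S F

lemma exc_mean_le (hp : 1 ≤ p) {s : ℝ} (S : Finset α) (hS : S.Nonempty) (F : α → ι → ℝ) :
    exc p s (mean S F) ≤ (∑ x ∈ S, exc p s (F x)) / S.card := by
  refine le_trans (nm_mono hp fun i => ?_) (nm_mean_le hp S fun x i => max (|F x i| - s) 0)
  have hc : (0 : ℝ) < S.card := by exact_mod_cast hS.card_pos
  rw [abs_of_nonneg (le_max_right _ _), mean, mean,
    abs_of_nonneg (div_nonneg (sum_nonneg fun x _ => le_max_right _ _) hc.le)]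
  refine max_le ?_ (div_nonneg (sum_nonneg fun x _ => le_max_right _ _) hc.le)
  rw [abs_div, abs_of_pos hc, sub_le_iff_le_add, div_le_iff₀ hc, add_mul, div_mul_cancel₀ _ hc.ne']
  calc |∑ x ∈ S, F x i| ≤ ∑ x ∈ S, |F x i| := abs_sum_le_sum_abs _ _
    _ ≤ ∑ x ∈ S, (max (|F x i| - s) 0 + s) :=
        sum_le_sum fun x _ => by linarith [le_max_left (|F x i| - s) 0]
    _ = _ := by rw [sum_add_distrib, sum_const, nsmul_eq_mul, mul_comm]

lemma rpow_avg_le (hp : 1 ≤ p) {S : Finset α} (hS : S.Nonempty) (F : α → ℝ)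
    (hF : ∀ x ∈ S, 0 ≤ F x) : ((∑ x ∈ S, F x) / S.card) ^ p ≤ (∑ x ∈ S, F x ^ p) / S.card := by
  have hc : (0 : ℝ) < S.card := by exact_mod_cast hS.card_pos
  have h := Real.rpow_sum_le_const_mul_sum_rpow_of_nonneg S hp hF
  rw [Real.div_rpow (sum_nonneg hF) hc.le, div_le_iff₀ (by positivity)]
  refine h.trans (le_of_eq ?_)
  rw [Real.rpow_sub_one hc.ne']
  ring

lemma avg_le_rpow_avg (hp : 1 ≤ p) {S : Finset α} (hS : S.Nonempty) (F : α → ℝ)
    (hF : ∀ x ∈ S, 0 ≤ F x) :
    (∑ x ∈ S, F x) / S.card ≤ ((∑ x ∈ S, F x ^ p) / S.card) ^ (1 / p) := by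
  have h0 : 0 ≤ (∑ x ∈ S, F x) / S.card := div_nonneg (sum_nonneg hF) (Nat.cast_nonneg _)
  have := Real.rpow_le_rpow (by positivity) (rpow_avg_le hp hS F hF) (show 0 ≤ 1 / p by positivity)
  rwa [← Real.rpow_mul h0, mul_one_div_cancel (by linarith), Real.rpow_one] at this

/-! ## Boxes -/

variable {N : ℕ}

/-- The box `[0, R)^N`. -/
noncomputable def box (N R : ℕ) : Finset (Fin N → ℤ) := Fintype.piFinset fun _ => Finset.Ico (0 : ℤ) R

lemma mem_box {R : ℕ} {r : Fin N → ℤ} : r ∈ box N R ↔ ∀ i, 0 ≤ r i ∧ r i < R := by simp [box]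

lemma card_box (R : ℕ) : (box N R).card = R ^ N := by simp [box, Fintype.card_piFinset]

lemma box_nonempty {R : ℕ} (hR : 0 < R) : (box N R).Nonempty :=
  ⟨0, mem_box.2 fun _ => by simp [hR]⟩

lemma card_lost_le {R Z : ℕ} (z : Fin N → ℤ) (hz : ∀ i, |z i| ≤ Z) :
    ((box N R) \ (box N R).map (addRightEmbedding z)).card * R ≤ N * Z * R ^ N := by
  classical
  let bad := fun i => (Finset.Ico (0 : ℤ) R).filter fun a => ¬(0 ≤ a - z i ∧ a - z i < R)
  have hsub : (box N R) \ (box N R).map (addRightEmbedding z) ⊆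
      univ.biUnion fun i => Fintype.piFinset
        (Function.update (fun _ => Finset.Ico (0 : ℤ) R) i (bad i)) := by
    intro r hr
    rw [mem_sdiff, mem_map] at hr
    push Not at hr
    obtain ⟨hr, hno⟩ := hr
    obtain ⟨i, hi⟩ : ∃ i, ¬(0 ≤ r i - z i ∧ r i - z i < R) := by
      by_contra hall
      push Not at hall
      exact hno (r - z) (mem_box.2 fun i => by simpa using hall i) (by simp)
    refine mem_biUnion.2 ⟨i, mem_univ i, Fintype.mem_piFinset.2 fun j => ?_⟩
    have hj := mem_box.1 hr j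
    by_cases h : j = i
    · subst h
      simpa [bad, hj.1, hj.2] using hi
    · simpa [Function.update_of_ne h] using hj
  have hbad : ∀ i, (bad i).card ≤ Z := by
    intro i
    have h1 : (bad i) ⊆ Finset.Ico (0 : ℤ) (z i) ∪ Finset.Ico ((R : ℤ) + z i) R := fun a ha => by
      simp only [bad, mem_filter, mem_Ico, mem_union] at ha ⊢
      omega
    refine (card_le_card h1).trans ((card_union_le _ _).trans ?_)
    have := abs_le.1 (hz i)
    simp only [Int.card_Ico]
    omega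
  calc _ ≤ (∑ i : Fin N, Z * R ^ (N - 1)) * R := by
        gcongr
        refine (card_le_card hsub).trans (card_biUnion_le.trans (sum_le_sum fun i _ => ?_))
        rw [Fintype.card_piFinset]
        have e : (fun j => (Function.update (fun _ => Finset.Ico (0 : ℤ) R) i (bad i) j).card) =
            Function.update (fun _ => R) i (bad i).card := by
          funext j
          by_cases h : j = i
          · subst h; simp
          · simp [Function.update_of_ne h]
        rw [e, prod_update_of_mem (mem_univ i)]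
        simp only [prod_const, card_univ_sdiff, card_singleton, Fintype.card_fin]
        gcongr
        exact hbad i
    _ = _ := by
        rcases Nat.eq_zero_or_pos N with rfl | hN
        · simp
        · rw [sum_const, card_univ, Fintype.card_fin, smul_eq_mul, mul_assoc, mul_assoc,
            ← pow_succ, show N - 1 + 1 = N by omega, mul_assoc]

lemma card_gained_le {R Z : ℕ} (z : Fin N → ℤ) (hz : ∀ i, |z i| ≤ Z) :
    ((box N R).map (addRightEmbedding z) \ box N R).card * R ≤ N * Z * R ^ N := by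
  rw [card_sdiff_comm (card_map _)]
  exact card_lost_le z hz

/-- Translating a box changes a sum of a bounded non-negative function little. -/
lemma sum_box_shift {R Z : ℕ} (hR : 0 < R) (z : Fin N → ℤ) (hz : ∀ i, |z i| ≤ Z)
    (F : (Fin N → ℤ) → ℝ) (hF : ∀ r, 0 ≤ F r) {K : ℝ}
    (hK : ∀ r ∈ box N R, F (r + z) ≤ K) :
    ∑ r ∈ box N R, F (r + z) ≤ ∑ r ∈ box N R, F r + (R : ℝ) ^ N * (N * Z / R * K) := by
  classical
  obtain ⟨r0, hr0⟩ := box_nonempty (N := N) hR
  have hK0 : 0 ≤ K := (hF _).trans (hK r0 hr0)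
  set B := (box N R).map (addRightEmbedding z) with hB
  have e : ∑ r ∈ box N R, F (r + z) = ∑ r ∈ B, F r := by simp [hB]
  have hc : ((B \ box N R).card : ℝ) * R ≤ N * Z * (R : ℝ) ^ N := by
    exact_mod_cast card_gained_le z hz
  have h1 : ∑ r ∈ B \ box N R, F r ≤ ((B \ box N R).card : ℝ) * K := by
    rw [← nsmul_eq_mul]
    refine sum_le_card_nsmul _ _ _ fun r hr => ?_
    obtain ⟨r', hr', rfl⟩ := mem_map.1 (mem_sdiff.1 hr).1
    exact hK r' hr'
  have h2 : ((B \ box N R).card : ℝ) ≤ N * Z * (R : ℝ) ^ N / R := by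
    rwa [le_div_iff₀ (by exact_mod_cast hR)]
  rw [e, ← sum_inter_add_sum_sdiff B (box N R)]
  refine add_le_add (sum_le_sum_of_subset_of_nonneg inter_subset_right fun r _ _ => hF r)
    (h1.trans ((mul_le_mul_of_nonneg_right h2 hK0).trans (le_of_eq ?_)))
  ring

/-- Translating a box changes a mean of bounded vectors little. -/
lemma mean_box_shift (hp : 1 ≤ p) {R Z : ℕ} (hR : 0 < R) (z : Fin N → ℤ) (hz : ∀ i, |z i| ≤ Z)
    (φ : (Fin N → ℤ) → ι → ℝ) {K : ℝ} (h1 : ∀ r ∈ box N R, nm p (φ (r + z)) ≤ K)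
    (h2 : ∀ r ∈ box N R, nm p (φ r) ≤ K) :
    nm p (mean (box N R) (fun r => φ (r + z)) - mean (box N R) φ) ≤ 2 * (N * Z / R * K) := by
  classical
  obtain ⟨r0, hr0⟩ := box_nonempty (N := N) hR
  have hK0 : 0 ≤ K := (nm_nonneg _).trans (h1 r0 hr0)
  have hc : ((box N R).card : ℝ) = (R : ℝ) ^ N := by rw [card_box]; norm_cast
  have hRN : (0 : ℝ) < (R : ℝ) ^ N := by positivity
  set B := (box N R).map (addRightEmbedding z) with hB
  have e : mean (box N R) (fun r => φ (r + z)) - mean (box N R) φ =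
      ((R : ℝ) ^ N)⁻¹ • (∑ r ∈ B \ box N R, φ r - ∑ r ∈ box N R \ B, φ r) := by
    rw [sum_sdiff_sub_sum_sdiff]
    funext i
    simp [mean, hc, hB, Finset.sum_apply]
    ring
  have hg : ((B \ box N R).card : ℝ) ≤ N * Z * (R : ℝ) ^ N / R := by
    rw [le_div_iff₀ (by exact_mod_cast hR)]; exact_mod_cast card_gained_le z hz
  have hl : ((box N R \ B).card : ℝ) ≤ N * Z * (R : ℝ) ^ N / R := by
    rw [le_div_iff₀ (by exact_mod_cast hR)]; exact_mod_cast card_lost_le z hz
  have s1 : ∑ r ∈ B \ box N R, nm p (φ r) ≤ ((B \ box N R).card : ℝ) * K := by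
    rw [← nsmul_eq_mul]
    refine sum_le_card_nsmul _ _ _ fun r hr => ?_
    obtain ⟨r', hr', rfl⟩ := mem_map.1 (mem_sdiff.1 hr).1
    exact h1 r' hr'
  have s2 : ∑ r ∈ box N R \ B, nm p (φ r) ≤ ((box N R \ B).card : ℝ) * K := by
    rw [← nsmul_eq_mul]
    exact sum_le_card_nsmul _ _ _ fun r hr => h2 r (mem_sdiff.1 hr).1
  rw [e, nm_smul hp, abs_of_pos (inv_pos.2 hRN), inv_mul_le_iff₀ hRN]
  calc nm p (∑ r ∈ B \ box N R, φ r - ∑ r ∈ box N R \ B, φ r)
      ≤ ((B \ box N R).card : ℝ) * K + ((box N R \ B).card : ℝ) * K :=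
        (nm_sub_le hp _ _).trans
          (add_le_add ((nm_sum_le hp _ _).trans s1) ((nm_sum_le hp _ _).trans s2))
    _ ≤ N * Z * (R : ℝ) ^ N / R * K + N * Z * (R : ℝ) ^ N / R * K := by gcongr
    _ = _ := by ring

end Vale.Agent.P249.PolyLower
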