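import Vale.Agent.P249.PolyLower.Average

/-! # A map on a grid, smoothed over boxes: increments are nearly linear and nearly isometric -/

namespace Vale.Agent.P249.PolyLower

open Finset

variable {N d : ℕ} {p : ℝ}

/-- The norm of an integer vector. -/
noncomputable def znm (p : ℝ) (x : Fin N → ℤ) : ℝ := nm p fun i => (x i : ℝ)

/-- Coordinates bounded by `a`. -/
def Within (a : ℕ) (x : Fin N → ℤ) : Prop := ∀ i, |x i| ≤ a

/-- `f` has distortion `D` on the grid of radius `M`. -/
structure GridMap (p D : ℝ) (M : ℕ) (f : (Fin N → ℤ) → Fin d → ℝ) : Prop where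
  lo : ∀ x y, Within M x → Within M y → znm p (x - y) ≤ nm p (f x - f y)
  up : ∀ x y, Within M x → Within M y → nm p (f x - f y) ≤ D * znm p (x - y)

/-- The box average. -/
noncomputable def smooth (R : ℕ) (f : (Fin N → ℤ) → Fin d → ℝ) (y : Fin N → ℤ) : Fin d → ℝ :=
  mean (box N R) fun r => f (y + r)

/-- The increment of the average in direction `k`. -/
noncomputable def inc (R : ℕ) (f : (Fin N → ℤ) → Fin d → ℝ) (k : Fin N) (y : Fin N → ℤ) :
    Fin d → ℝ :=
  smooth R f (y + Pi.single k 1) - smooth R f y

/-- The linearised increment. -/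
noncomputable def lin (R : ℕ) (f : (Fin N → ℤ) → Fin d → ℝ) (x : Fin N → ℤ) (y : Fin N → ℤ) :
    Fin d → ℝ :=
  ∑ k, (x k : ℝ) • inc R f k y

variable {D : ℝ} {M R : ℕ} {f : (Fin N → ℤ) → Fin d → ℝ} {a b : ℕ}

lemma Within.add {x y : Fin N → ℤ} (hx : Within a x) (hy : Within b y) (h : a + b ≤ M) :
    Within M (x + y) := fun i => by
  have h1 := hx i
  have h2 := hy i
  have h3 := abs_add_le (x i) (y i)
  simp only [Pi.add_apply]
  omega

lemma within_single (k : Fin N) : Within 1 (Pi.single k (1 : ℤ)) := fun i => by
  by_cases h : i = k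
  · subst h; simp
  · simp [Pi.single_eq_of_ne h]

lemma within_box {r : Fin N → ℤ} (hr : r ∈ box N R) : Within R r := fun i => by
  have := mem_box.1 hr i
  rw [abs_of_nonneg this.1]
  omega

lemma Within.mono {x : Fin N → ℤ} (hx : Within a x) (h : a ≤ b) : Within b x := fun i => by
  have := hx i; omega

lemma znm_le (hp : 1 ≤ p) {x : Fin N → ℤ} (hx : Within a x) : znm p x ≤ (N : ℝ) * a := by
  have hi : ∀ i, |(x i : ℝ)| ≤ a := fun i => by
    have h1 : ((|x i| : ℤ) : ℝ) ≤ ((a : ℤ) : ℝ) := Int.cast_le.2 (hx i)
    simpa using h1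
  have h := nm_sum_le hp (univ : Finset (Fin N)) fun k i => if i = k then (x i : ℝ) else 0
  have e : (∑ k, fun i => if i = k then (x i : ℝ) else 0) = fun i : Fin N => (x i : ℝ) := by
    funext i; simp [Finset.sum_apply]
  rw [e] at h
  refine h.trans ?_
  calc ∑ k : Fin N, nm p (fun i => if i = k then (x i : ℝ) else 0) ≤ ∑ _k : Fin N, (a : ℝ) := by
        refine sum_le_sum fun k _ => ?_
        have e1 : ∀ i, |if i = k then (x i : ℝ) else 0| ^ p =
            if i = k then |(x i : ℝ)| ^ p else 0 := fun i => by
          split_ifs with h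
          · rfl
          · rw [abs_zero, Real.zero_rpow (by linarith)]
        rw [nm, sum_congr rfl fun i _ => e1 i, sum_ite_eq' univ k, if_pos (mem_univ k),
          ← Real.rpow_mul (abs_nonneg _), mul_one_div_cancel (by linarith), Real.rpow_one]
        exact hi k
    _ = _ := by simp

lemma znm_single (hp : 1 ≤ p) (k : Fin N) : znm p (Pi.single k (1 : ℤ)) = 1 := by
  have e : ∀ i, |((Pi.single k (1 : ℤ) : Fin N → ℤ) i : ℝ)| ^ p = if i = k then 1 else 0 := fun i => by
    by_cases h : i = k
    · subst h; simp
    · simp [h, Real.zero_rpow (show p ≠ 0 by linarith)]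
  rw [znm, nm, sum_congr rfl fun i _ => e i]
  simp

lemma znm_smul (hp : 1 ≤ p) (L : ℕ) (x : Fin N → ℤ) : znm p ((L : ℤ) • x) = L * znm p x := by
  have := nm_smul hp (L : ℝ) fun i : Fin N => (x i : ℝ)
  simpa [znm, Pi.smul_def] using this

variable (hp : 1 ≤ p) (hD : 0 ≤ D) (hR : 0 < R) (hf : GridMap p D M f)

include hp hR hf in
lemma smooth_upper {y x : Fin N → ℤ} (hy : Within a y) (hx : Within b x) (hM : a + b + R ≤ M) :
    nm p (smooth R f (y + x) - smooth R f y) ≤ D * znm p x := by
  have e : smooth R f (y + x) - smooth R f y =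
      mean (box N R) fun r => f (y + x + r) - f (y + r) := by
    funext c; simp [smooth, mean, sum_sub_distrib, sub_div]
  rw [e]
  refine (nm_mean_le hp _ _).trans ?_
  have hc : (0 : ℝ) < (box N R).card := by exact_mod_cast (box_nonempty hR).card_pos
  rw [div_le_iff₀ hc, mul_comm (D * _), ← nsmul_eq_mul]
  refine sum_le_card_nsmul _ _ _ fun r hr => ?_
  have := hf.up (y + x + r) (y + r) ((hy.add hx le_rfl).add (within_box hr) hM)
    (hy.add (within_box hr) (by omega))
  simpa [add_sub_add_right_eq_sub] using this

include hp hD hR hf in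
lemma smooth_near {y : Fin N → ℤ} (hy : Within a y) (hM : a + R ≤ M) :
    nm p (smooth R f y - f y) ≤ D * (N * R) := by
  have hc : (0 : ℝ) < (box N R).card := by exact_mod_cast (box_nonempty hR).card_pos
  have e : smooth R f y - f y = mean (box N R) fun r => f (y + r) - f y := by
    funext c
    simp only [smooth, mean, Pi.sub_apply, sum_sub_distrib, sum_const, nsmul_eq_mul]
    field_simp
  rw [e]
  refine (nm_mean_le hp _ _).trans ?_
  rw [div_le_iff₀ hc, mul_comm (D * _), ← nsmul_eq_mul]
  refine sum_le_card_nsmul _ _ _ fun r hr => ?_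
  have h1 := hf.up (y + r) y (hy.add (within_box hr) hM) (hy.mono (by omega))
  rw [add_sub_cancel_left] at h1
  exact h1.trans (mul_le_mul_of_nonneg_left (znm_le hp (within_box hr)) hD)

lemma inc_eq (k : Fin N) (y : Fin N → ℤ) :
    inc R f k y = mean (box N R) fun r => f (y + r + Pi.single k 1) - f (y + r) := by
  funext c
  simp only [inc, smooth, mean, Pi.sub_apply, sum_sub_distrib, sub_div]
  congr 2
  exact sum_congr rfl fun r _ => by rw [add_right_comm]

include hp hR hf in
lemma inc_shift {y z : Fin N → ℤ} (hy : Within a y) (hz : Within 1 z) (hM : a + R + 3 ≤ M)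
    (k : Fin N) : nm p (inc R f k (y + z) - inc R f k y) ≤ 2 * (N / R * D) := by
  let φ : (Fin N → ℤ) → Fin d → ℝ := fun r => f (y + r + Pi.single k 1) - f (y + r)
  have h1 : ∀ {r : Fin N → ℤ}, Within (R + 1) r → nm p (φ r) ≤ D := fun {r} hr => by
    have h := hf.up (y + r + Pi.single k 1) (y + r)
      ((hy.add hr le_rfl).add (within_single k) (by omega)) (hy.add hr (by omega))
    rwa [add_sub_cancel_left, znm_single hp, mul_one] at h
  have e : inc R f k (y + z) = mean (box N R) fun r => φ (r + z) := by
    rw [inc_eq]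
    congr 1
    funext r
    simp only [φ, show y + z + r = y + (r + z) by abel]
  rw [e, inc_eq]
  have := mean_box_shift (p := p) hp hR z (Z := 1) hz φ
    (fun r hr => h1 ((within_box hr).add hz le_rfl))
    (fun r hr => h1 ((within_box hr).mono (by omega)))
  simpa using this

include hp hD hR hf in
lemma lin_error {y x : Fin N → ℤ} (hy : Within a y) (hx : Within 1 x) (hM : a + R + 5 ≤ M) :
    nm p (smooth R f (y + x) - smooth R f y - lin R f x y) ≤ N * (2 * (N / R * D)) := by
  classical
  suffices H : ∀ S : Finset (Fin N),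
      nm p (smooth R f (y + fun i => if i ∈ S then x i else 0) - smooth R f y -
        ∑ k ∈ S, (x k : ℝ) • inc R f k y) ≤ S.card * (2 * (N / R * D)) by
    simpa [lin, Finset.card_univ] using H univ
  intro S
  induction S using Finset.induction_on with
  | empty =>
    have e : (y + fun i : Fin N => if i ∈ (∅ : Finset (Fin N)) then x i else 0) = y := by
      funext i; simp
    rw [e, sum_empty, sub_zero, sub_self, nm_zero hp]
    simp
  | insert k S hk ih =>
    set w : Fin N → ℤ := fun i => if i ∈ S then x i else 0 with hw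
    have hw1 : Within 1 w := fun i => by
      simp only [hw]; split_ifs
      · exact hx i
      · simp
    have e : (y + fun i => if i ∈ insert k S then x i else 0) = y + w + Pi.single k (x k) := by
      funext i
      by_cases h : i = k
      · subst h; simp [hw, hk]
      · simp [hw, h]
    have hterm : nm p (smooth R f (y + w + Pi.single k (x k)) - smooth R f (y + w) -
        (x k : ℝ) • inc R f k y) ≤ 2 * (N / R * D) := by
      have h0 : 0 ≤ 2 * ((N : ℝ) / R * D) := by positivity
      have := abs_le.1 (hx k)
      rcases (show x k = -1 ∨ x k = 0 ∨ x k = 1 by omega) with h | h | h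
      · rw [h]
        have hz : Within 1 (w - Pi.single k 1) := fun i => by
          by_cases h' : i = k
          · subst h'; simp [hw, hk]
          · simpa [Pi.single_eq_of_ne h'] using hw1 i
        have e' : smooth R f (y + w + Pi.single k (-1)) - smooth R f (y + w) -
            ((-1 : ℤ) : ℝ) • inc R f k y = inc R f k y - inc R f k (y + (w - Pi.single k 1)) := by
          simp only [inc, Pi.single_neg, Int.cast_neg, Int.cast_one, neg_smul, one_smul]
          rw [show y + (w - Pi.single k 1) + Pi.single k 1 = y + w by abel,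
            show y + (w - Pi.single k 1) = y + w + -Pi.single k 1 by abel]
          abel
        rw [e', nm_sub_comm]
        exact inc_shift hp hR hf hy hz (by omega) k
      · rw [h]; simp only [Pi.single_zero, add_zero, Int.cast_zero, zero_smul, sub_self, nm_zero hp]; exact h0
      · rw [h]
        simp only [Int.cast_one, one_smul]
        exact inc_shift hp hR hf hy hw1 (by omega) k
    rw [e, sum_insert hk, card_insert_of_notMem hk]
    calc nm p (smooth R f (y + w + Pi.single k (x k)) - smooth R f y -
          ((x k : ℝ) • inc R f k y + ∑ l ∈ S, (x l : ℝ) • inc R f l y))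
        = nm p ((smooth R f (y + w + Pi.single k (x k)) - smooth R f (y + w) -
            (x k : ℝ) • inc R f k y) +
          (smooth R f (y + w) - smooth R f y - ∑ l ∈ S, (x l : ℝ) • inc R f l y)) := by
          congr 1; abel
      _ ≤ _ := (nm_add_le hp _ _).trans (by push_cast; linarith [hterm, ih])

include hp hD hR hf in
lemma smooth_lower {y x : Fin N → ℤ} (hy : Within a y) (hx : Within b x) (hM : a + b + R ≤ M) :
    znm p x - 2 * (D * (N * R)) ≤ nm p (smooth R f (y + x) - smooth R f y) := by
  have h1 := smooth_near hp hD hR hf (hy.add hx le_rfl) hM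
  have h2 := smooth_near hp hD hR hf hy (show a + R ≤ M by omega)
  have h3 := hf.lo (y + x) y (hy.add hx (by omega)) (hy.mono (by omega))
  rw [add_sub_cancel_left] at h3
  have h4 := nm_add_le hp (smooth R f (y + x) - smooth R f y)
    ((f (y + x) - smooth R f (y + x)) + (smooth R f y - f y))
  have h5 := nm_add_le hp (f (y + x) - smooth R f (y + x)) (smooth R f y - f y)
  rw [nm_sub_comm (f (y + x))] at h5
  rw [show smooth R f (y + x) - smooth R f y +
    ((f (y + x) - smooth R f (y + x)) + (smooth R f y - f y)) = f (y + x) - f y by abel] at h4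
  linarith

end Vale.Agent.P249.PolyLower
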