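import Vale.Agent.P249.PolyLower.Tower

/-! # Any power of `log n / log log n` is a lower bound for distortion close to one -/

namespace Vale.Agent.P249.PolyLower

open Finset Filter
open scoped Topology

/-- The scales used for `N` directions. -/
def scales (N q P : ℕ) : Scales where
  R := q * N ^ P * N ^ 2
  L := q * N ^ P * (q * N ^ P * N ^ 2) * N
  B := q * N ^ P * (q * N ^ P * (q * N ^ P * N ^ 2) * N) * N
  T := q * N ^ P * (q * N ^ P * (q * N ^ P * (q * N ^ P * N ^ 2) * N) * N) * N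
  M := 12 * (q ^ 4 * N ^ (4 * P + 5))

lemma scales_fits {N q P : ℕ} {p D e δ : ℝ} (hN : 0 < N) (hq : 0 < q) (hp : 1 ≤ p)
    (hP : p ≤ P) (hD1 : 1 ≤ D) (hD : D ≤ 2) (he : e ≤ 1) (hqe : 8 ≤ e * q)
    (hqe' : (2 : ℝ) ^ p ≤ e * q) (up : (D + e) ^ p ≤ 1 + δ)
    (low : 1 - δ ≤ ((1 - e) ^ p - e) / (1 + e) ^ p - e) :
    (scales N q P).Fits N p D δ e e e e := by
  have hNr : (1 : ℝ) ≤ N := by exact_mod_cast hN
  have hqr : (0 : ℝ) < q := by exact_mod_cast hq
  have hNP : (1 : ℝ) ≤ (N : ℝ) ^ P := one_le_pow₀ hNr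
  have hQ : (q : ℝ) ≤ q * (N : ℝ) ^ P := le_mul_of_one_le_right hqr.le hNP
  have he0 : 0 ≤ e := by by_contra h; nlinarith [mul_neg_of_neg_of_pos (not_le.1 h) hqr]
  have hQpos : 0 < (q : ℝ) * (N : ℝ) ^ P := by positivity
  have heQ : 8 ≤ e * (q * (N : ℝ) ^ P) := hqe.trans (mul_le_mul_of_nonneg_left hQ he0)
  have hbase : ∀ k : ℝ, k * D ≤ 8 → k * D / (q * (N : ℝ) ^ P) ≤ e := fun k hk => by
    rw [div_le_iff₀ hQpos]; linarith
  refine ⟨by simp only [scales]; positivity, by simp only [scales]; positivity, by simp only [scales]; positivity,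
    by simp only [scales]; positivity, ?_, ?_, ?_, he, ?_, ?_, up, low⟩
  · have h : ∀ i ≤ 4, ∀ k ≤ 4 * P + 5, q ^ i * N ^ k ≤ q ^ 4 * N ^ (4 * P + 5) := fun i hi k hk =>
      Nat.mul_le_mul (Nat.pow_le_pow_right hq hi) (Nat.pow_le_pow_right hN hk)
    have h1 := h 1 (by omega) (P + 2) (by omega)
    have h2 := h 2 (by omega) (2 * P + 3) (by omega)
    have h3 := h 3 (by omega) (3 * P + 4) (by omega)
    have h0 : 1 ≤ q ^ 4 * N ^ (4 * P + 5) := by
      have := h 0 (by omega) 0 (by omega); simpa using this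
    have eR : (scales N q P).R = q ^ 1 * N ^ (P + 2) := by simp only [scales]; ring
    have eL : (scales N q P).L = q ^ 2 * N ^ (2 * P + 3) := by simp only [scales]; ring
    have eB : (scales N q P).B = q ^ 3 * N ^ (3 * P + 4) := by simp only [scales]; ring
    have eT : (scales N q P).T = q ^ 4 * N ^ (4 * P + 5) := by simp only [scales]; ring
    have eM : (scales N q P).M = 12 * (q ^ 4 * N ^ (4 * P + 5)) := rfl
    omega
  · refine le_of_eq_of_le ?_ (hbase 2 (by linarith))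
    simp only [scales]; push_cast; field_simp
  · refine le_of_eq_of_le ?_ (hbase 2 (by linarith))
    simp only [scales]; push_cast; field_simp
  · have e1 : ((N : ℝ) * (scales N q P).L / (scales N q P).B) = 1 / (q * (N : ℝ) ^ P) := by
      simp only [scales]; push_cast; field_simp
    rw [e1, Real.mul_rpow (by linarith) (Nat.cast_nonneg _), div_mul_eq_mul_div, one_mul,
      div_le_iff₀ hQpos, ← mul_assoc]
    refine mul_le_mul ?_ ?_ (by positivity) (mul_nonneg he0 hqr.le)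
    · exact (Real.rpow_le_rpow (by linarith) hD (by linarith)).trans hqe'
    · rw [← Real.rpow_natCast]
      exact Real.rpow_le_rpow_of_exponent_le hNr hP
  · refine le_trans (div_le_div_of_nonneg_right (c := ((scales N q P).T : ℝ)) (b := 2 * (D * (N *
      (scales N q P).B) + D * (N * (scales N q P).B))) ?_ (Nat.cast_nonneg _)) ?_
    · have h : (scales N q P).R ≤ (scales N q P).B := by
        simp only [scales]
        calc q * N ^ P * N ^ 2 ≤ (q * N ^ P * N ^ 2) * (q * N ^ P * (q * N ^ P) * N * N) :=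
              Nat.le_mul_of_pos_right _ (by positivity)
          _ = _ := by ring
      gcongr
    refine le_of_eq_of_le ?_ (hbase 4 (by linarith))
    simp only [scales]; push_cast; field_simp; ring

lemma exists_params {p : ℝ} (hp : 1 ≤ p) {δ η : ℝ} (hδ : 0 < δ) (hη : 0 < η) :
    ∃ e : ℝ, 0 < e ∧ e ≤ 1 ∧ 2 * e ≤ η ∧ (1 + e + e) ^ p ≤ 1 + δ ∧
      1 - δ ≤ ((1 - e) ^ p - e) / (1 + e) ^ p - e := by
  have hp0 : (0 : ℝ) ≤ p := by linarith
  have h1 : ContinuousAt (fun e : ℝ => (1 + e + e) ^ p) 0 :=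
    ((continuous_const.add continuous_id).add continuous_id).continuousAt.rpow_const (Or.inr hp0)
  have h2 : ContinuousAt (fun e : ℝ => ((1 - e) ^ p - e) / (1 + e) ^ p - e) 0 := by
    refine ((((continuous_const.sub continuous_id).continuousAt.rpow_const (Or.inr hp0)).sub
      continuousAt_id).div
        ((continuous_const.add continuous_id).continuousAt.rpow_const (Or.inr hp0)) ?_).sub
      continuousAt_id
    simp
  have a1 := h1.eventually_lt continuousAt_const (show _ < 1 + δ by simp; linarith)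
  have a2 := continuousAt_const.eventually_lt h2 (show 1 - δ < _ by simp; linarith)
  have a3 : ∀ᶠ e : ℝ in 𝓝 0, e < min 1 (η / 2) := eventually_lt_nhds (by positivity)
  have hpos : ∀ᶠ e : ℝ in 𝓝[>] 0, 0 < e := self_mem_nhdsWithin
  obtain ⟨e, ⟨⟨b1, b2⟩, b3⟩, he⟩ :=
    ((((a1.and a2).and a3).filter_mono nhdsWithin_le_nhds).and hpos).exists
  have := lt_min_iff.1 b3
  exact ⟨e, he, by linarith, by linarith, b1.le, b2.le⟩

/-- Small hard sets: `N ^ (a N)` points needing dimension of order `N ^ j`. -/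
theorem exists_hard (p : ℝ) (hp : 1 ≤ p) (hp2 : p ≠ 2) (j : ℕ) :
    ∃ (D : ℝ) (a N₀ : ℕ), 1 < D ∧ 1 ≤ a ∧ 3 ≤ N₀ ∧ ∀ N, N₀ ≤ N →
      ∃ X : Finset (Idx N j → ℝ), X.card ≤ N ^ (a * N) ∧
        ∀ (d : ℕ) (f : (Idx N j → ℝ) → Fin d → ℝ), BiLip p D X f →
          (N : ℝ) ^ j ≤ (2 * D) ^ p * d := by
  have hp0 : (0 : ℝ) < p := by linarith
  have habs : 0 < |p - 2| := abs_pos.2 (sub_ne_zero.2 hp2)
  set γ : ℝ := 1 / (2 * (j + 1)) with hγd
  have hγ0 : 0 < γ := by positivity
  set δ : ℝ := |p - 2| / 6 * (γ / 144) ^ p with hδd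
  have hδ0 : 0 < δ := by positivity
  have hδγ : 72 * (6 * δ / |p - 2|) ^ (1 / p) = γ / 2 := by
    rw [hδd, show 6 * (|p - 2| / 6 * (γ / 144) ^ p) / |p - 2| = (γ / 144) ^ p by field_simp,
      ← Real.rpow_mul (by positivity), mul_one_div_cancel hp0.ne', Real.rpow_one]
    ring
  obtain ⟨e, he0, he1, he2, hup, hlow⟩ := exists_params hp hδ0 (show 0 < γ / 2 by positivity)
  set q := ⌈max 8 ((2 : ℝ) ^ p) / e⌉₊ with hqd
  have hqe : max 8 ((2 : ℝ) ^ p) ≤ e * q := by
    have := Nat.le_ceil (max 8 ((2 : ℝ) ^ p) / e)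
    rw [← hqd, div_le_iff₀ he0] at this
    linarith
  have hq : 0 < q := Nat.ceil_pos.2 (by positivity)
  set P := ⌈p⌉₊
  refine ⟨1 + e, (4 * P + 7) * j + 1, 25 * q ^ 4 + 2, by linarith, Nat.le_add_left 1 _, by
    have : 1 ≤ q ^ 4 := Nat.one_le_pow _ _ hq
    omega, fun N hN => ?_⟩
  have hq4 : 1 ≤ q ^ 4 := Nat.one_le_pow _ _ hq
  have hN0 : 0 < N := by omega
  set S := scales N q P
  have hS : S.Fits N p (1 + e) δ e e e e := scales_fits hN0 hq hp (Nat.le_ceil p) (by linarith)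
    (by linarith) he1 ((le_max_left _ _).trans hqe) ((le_max_right _ _).trans hqe) hup hlow
  refine ⟨tower N S.M S.T j, ?_, fun d f hf => ?_⟩
  · refine (card_tower _ _ _).trans ?_
    have hk : 1 ≤ N ^ (4 * P + 5) := Nat.one_le_pow _ _ hN0
    have h1 : 2 * S.M + 1 ≤ N ^ (4 * P + 6) := by
      have eM : S.M = 12 * (q ^ 4 * N ^ (4 * P + 5)) := rfl
      calc 2 * S.M + 1 ≤ 25 * q ^ 4 * N ^ (4 * P + 5) := by
            have : 1 ≤ q ^ 4 * N ^ (4 * P + 5) := Nat.one_le_iff_ne_zero.2 (by positivity)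
            rw [eM, mul_assoc 25]
            omega
        _ ≤ N * N ^ (4 * P + 5) := Nat.mul_le_mul_right _ (by omega)
        _ = _ := by ring
    calc 2 * ((2 * S.M + 1) ^ N * N) ^ j
        ≤ N ^ N * ((N ^ (4 * P + 6)) ^ N * N ^ N) ^ j := by
          gcongr
          · exact (show 2 ≤ N by omega).trans (Nat.le_self_pow hN0.ne' N)
          · exact Nat.le_self_pow hN0.ne' N
      _ = _ := by
          rw [← pow_mul, ← pow_add, ← pow_mul, ← pow_add]
          congr 1
          ring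
  · refine dim_bound hp hp2 hN0 (by linarith) hδ0.le S hS hγ0.le (by linarith) ?_ f hf
    rw [hγd, mul_one_div, div_le_iff₀ (by positivity)]
    linarith [(Nat.cast_nonneg j : (0 : ℝ) ≤ j)]

end Vale.Agent.P249.PolyLower
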