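import Mathlib

/-! # Scalar facts: disjointness defect and sign sums -/

namespace Vale.Agent.P249.PolyLower

open Finset

/-- The defect of Clarkson's inequality, signed by `p - 2`. -/
noncomputable def defect (p a b : ℝ) : ℝ :=
  (if 2 < p then 1 else -1) * (|a + b| ^ p + |a - b| ^ p - 2 * |a| ^ p - 2 * |b| ^ p)

lemma defect_core {p x t : ℝ} (hp : 1 ≤ p) (ht : 0 ≤ t) (htx : t ≤ x) :
    |p - 2| * t ^ p ≤
      (if 2 < p then 1 else -1) * ((x + t) ^ p + (x - t) ^ p - 2 * x ^ p - 2 * t ^ p) := by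
  have hp0 : p ≠ 0 := by linarith
  rcases ht.eq_or_lt with rfl | htp
  · simp [Real.zero_rpow hp0]; split_ifs <;> ring_nf <;> rfl
  have hx : 0 < x := htp.trans_le htx
  set r := p / 2 with hr
  have hsq : ∀ z : ℝ, 0 ≤ z → (z ^ 2) ^ r = z ^ p := fun z hz => by
    rw [← Real.rpow_natCast, ← Real.rpow_mul hz, hr]; push_cast; congr 1; ring
  have e1 : (x ^ 2 + t ^ 2) ^ r = x ^ p * (1 + t ^ 2 / x ^ 2) ^ r := by
    rw [← hsq x hx.le, ← Real.mul_rpow (sq_nonneg x) (by positivity)]
    congr 1; field_simp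
  have e2 : x ^ p * (t ^ 2 / x ^ 2) = t ^ p * (x / t) ^ (p - 2) := by
    rw [Real.div_rpow hx.le htp.le, Real.rpow_sub hx, Real.rpow_sub htp, Real.rpow_two,
      Real.rpow_two]
    have : 0 < t ^ p := by positivity
    field_simp
  have hxt : 1 ≤ x / t := by rw [le_div_iff₀ htp]; linarith
  have mid : ((1 / 2 : ℝ) • (x + t) ^ 2 + (1 / 2 : ℝ) • (x - t) ^ 2) = x ^ 2 + t ^ 2 := by
    simp only [smul_eq_mul]; ring
  by_cases h2 : 2 < p
  · rw [if_pos h2, one_mul, abs_of_pos (by linarith)]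
    have hc := (convexOn_rpow (show 1 ≤ r by linarith)).2 (Set.mem_Ici.2 (sq_nonneg (x + t)))
      (Set.mem_Ici.2 (sq_nonneg (x - t))) (by norm_num : (0 : ℝ) ≤ 1 / 2)
      (by norm_num : (0 : ℝ) ≤ 1 / 2) (by norm_num)
    rw [mid] at hc
    simp only [smul_eq_mul] at hc
    rw [hsq (x + t) (by linarith), hsq (x - t) (by linarith), e1] at hc
    have hb := one_add_mul_self_le_rpow_one_add
      (show -1 ≤ t ^ 2 / x ^ 2 by linarith [div_nonneg (sq_nonneg t) (sq_nonneg x)])
      (show 1 ≤ r by linarith)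
    have h3 : t ^ p * 1 ≤ t ^ p * (x / t) ^ (p - 2) := by
      gcongr; exact Real.one_le_rpow hxt (by linarith)
    rw [mul_one, ← e2] at h3
    have h4 := mul_le_mul_of_nonneg_left h3 (show 0 ≤ p by linarith)
    have h5 := mul_le_mul_of_nonneg_left hb (Real.rpow_nonneg hx.le p)
    have h6 : x ^ p * (1 + r * (t ^ 2 / x ^ 2)) = x ^ p + p * (x ^ p * (t ^ 2 / x ^ 2)) / 2 := by
      rw [hr]; ring
    linarith
  · rw [if_neg h2, abs_of_nonpos (by linarith)]
    have hc := (Real.concaveOn_rpow (show 0 ≤ r by linarith) (show r ≤ 1 by linarith)).2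
      (Set.mem_Ici.2 (sq_nonneg (x + t))) (Set.mem_Ici.2 (sq_nonneg (x - t)))
      (by norm_num : (0 : ℝ) ≤ 1 / 2) (by norm_num : (0 : ℝ) ≤ 1 / 2) (by norm_num)
    rw [mid] at hc
    simp only [smul_eq_mul] at hc
    rw [hsq (x + t) (by linarith), hsq (x - t) (by linarith), e1] at hc
    have hb := rpow_one_add_le_one_add_mul_self
      (show -1 ≤ t ^ 2 / x ^ 2 by linarith [div_nonneg (sq_nonneg t) (sq_nonneg x)])
      (show 0 ≤ r by linarith) (show r ≤ 1 by linarith)
    have h3 : t ^ p * (x / t) ^ (p - 2) ≤ t ^ p * 1 := by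
      gcongr; exact Real.rpow_le_one_of_one_le_of_nonpos hxt (by linarith)
    rw [mul_one, ← e2] at h3
    have h4 := mul_le_mul_of_nonneg_left h3 (show 0 ≤ p by linarith)
    have h5 := mul_le_mul_of_nonneg_left hb (Real.rpow_nonneg hx.le p)
    have h6 : x ^ p * (1 + r * (t ^ 2 / x ^ 2)) = x ^ p + p * (x ^ p * (t ^ 2 / x ^ 2)) / 2 := by
      rw [hr]; ring
    linarith

lemma abs_add_abs_sub_pow {p a b : ℝ} :
    |a + b| ^ p + |a - b| ^ p = (|a| + |b|) ^ p + |(|a| - |b|)| ^ p := by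
  rcases le_total 0 a with ha | ha <;> rcases le_total 0 b with hb | hb <;>
    simp only [abs_of_nonneg, abs_of_nonpos, ha, hb] <;>
    [rw [abs_of_nonneg (by linarith : 0 ≤ a + b)];
     rw [abs_of_nonneg (by linarith : 0 ≤ a - b), show a - -b = a + b by ring,
       show a + -b = a - b by ring, add_comm];
     rw [abs_of_nonpos (by linarith : a - b ≤ 0), show -a - b = -(a + b) by ring, abs_neg,
       show -a + b = -(a - b) by ring, add_comm];
     rw [abs_of_nonpos (by linarith : a + b ≤ 0), show -a - -b = -(a - b) by ring, abs_neg,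
       show -a + -b = -(a + b) by ring]]

/-- The defect dominates the smaller summand. -/
lemma min_le_defect {p a b : ℝ} (hp : 1 ≤ p) :
    |p - 2| * min |a| |b| ^ p ≤ defect p a b := by
  unfold defect
  rw [abs_add_abs_sub_pow]
  rcases le_total |b| |a| with h | h
  · rw [min_eq_right h, abs_of_nonneg (sub_nonneg.2 h)]
    exact defect_core hp (abs_nonneg b) h
  · rw [min_eq_left h, abs_of_nonpos (sub_nonpos.2 h), neg_sub, add_comm |a| |b|]
    refine (defect_core hp (abs_nonneg a) h).trans (le_of_eq ?_)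
    ring

lemma abs_abs_sub_abs (a b : ℝ) : |(|a + b| - |a - b|)| = 2 * min |a| |b| := by
  have key : ∀ u v : ℝ, 0 ≤ v → v ≤ u → |(|u + v| - |u - v|)| = 2 * v := fun u v hv hvu => by
    rw [abs_of_nonneg (by linarith : 0 ≤ u + v), abs_of_nonneg (sub_nonneg.2 hvu),
      abs_of_nonneg (by linarith)]
    ring
  have flip : ∀ u v : ℝ, |(|u + v| - |u - v|)| = |((|u| + |v|) - |(|u| - |v|)|)| := by
    intro u v
    rcases le_total 0 u with hu | hu <;> rcases le_total 0 v with hv | hv
    · rw [abs_of_nonneg hu, abs_of_nonneg hv, abs_of_nonneg (by linarith : 0 ≤ u + v)]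
    · rw [abs_of_nonneg hu, abs_of_nonpos hv, abs_of_nonneg (by linarith : 0 ≤ u - v),
        sub_neg_eq_add, ← sub_eq_add_neg, abs_sub_comm]
    · rw [abs_of_nonpos hu, abs_of_nonneg hv, abs_of_nonpos (by linarith : u - v ≤ 0),
        show -u - v = -(u + v) by ring, abs_neg, show -u + v = -(u - v) by ring, abs_sub_comm]
    · rw [abs_of_nonpos hu, abs_of_nonpos hv, abs_of_nonpos (by linarith : u + v ≤ 0),
        show -u - -v = -(u - v) by ring, abs_neg, show -u + -v = -(u + v) by ring]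
  have symm : |(|a + b| - |a - b|)| = |(|b + a| - |b - a|)| := by
    rw [add_comm b a, abs_sub_comm b a]
  rcases le_total |b| |a| with h | h
  · rw [flip, min_eq_right h, ← key |a| |b| (abs_nonneg b) h,
      abs_of_nonneg (add_nonneg (abs_nonneg a) (abs_nonneg b))]
  · rw [symm, flip, min_eq_left h, ← key |b| |a| (abs_nonneg a) h,
      abs_of_nonneg (add_nonneg (abs_nonneg b) (abs_nonneg a))]

variable {N : ℕ}

/-- The sign of a Boolean. -/
def sgn (b : Bool) : ℝ := if b then 1 else -1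

lemma sgn_not (b : Bool) : sgn (!b) = -sgn b := by cases b <;> simp [sgn]

/-- A signed sum. -/
def Z (a : Fin N → ℝ) (σ : Fin N → Bool) : ℝ := ∑ k, sgn (σ k) * a k

/-- The signed sum over the first `i` indices. -/
def pre (a : Fin N → ℝ) (i : ℕ) (σ : Fin N → Bool) : ℝ :=
  ∑ k : Fin N, if (k : ℕ) < i then sgn (σ k) * a k else 0

/-- The signed sum over the other indices. -/
def suf (a : Fin N → ℝ) (i : ℕ) (σ : Fin N → Bool) : ℝ :=
  ∑ k : Fin N, if (k : ℕ) < i then 0 else sgn (σ k) * a k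

lemma pre_add_suf (a : Fin N → ℝ) (i : ℕ) (σ : Fin N → Bool) :
    pre a i σ + suf a i σ = Z a σ := by
  rw [pre, suf, Z, ← sum_add_distrib]
  exact sum_congr rfl fun k _ => by split_ifs <;> simp

lemma pre_succ (a : Fin N → ℝ) (k : Fin N) (σ : Fin N → Bool) :
    pre a ((k : ℕ) + 1) σ = pre a k σ + sgn (σ k) * a k := by
  have e : ∀ l : Fin N, (if (l : ℕ) < (k : ℕ) + 1 then sgn (σ l) * a l else 0) =
      (if (l : ℕ) < (k : ℕ) then sgn (σ l) * a l else 0) +
        (if l = k then sgn (σ l) * a l else 0) := fun l => by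
    by_cases h : l = k
    · subst h; simp
    · have : (l : ℕ) ≠ (k : ℕ) := fun e => h (Fin.ext e)
      rw [if_neg h, add_zero]
      exact if_congr (by omega) rfl rfl
  rw [pre, pre, sum_congr rfl fun l _ => e l, sum_add_distrib, sum_ite_eq' univ k]
  simp

/-- `σ` below `i`, `τ` from `i` on. -/
def mix (i : ℕ) (σ τ : Fin N → Bool) : Fin N → Bool := fun k => if (k : ℕ) < i then σ k else τ k

lemma pre_mix (a : Fin N → ℝ) (i : ℕ) (σ τ : Fin N → Bool) :
    pre a i (mix i σ τ) = pre a i σ :=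
  sum_congr rfl fun k _ => by simp only [mix]; split_ifs <;> rfl

lemma suf_mix (a : Fin N → ℝ) (i : ℕ) (σ τ : Fin N → Bool) :
    suf a i (mix i σ τ) = suf a i τ :=
  sum_congr rfl fun k _ => by simp only [mix]; split_ifs <;> rfl

lemma mix_mix (i : ℕ) (σ τ : Fin N → Bool) : mix i (mix i σ τ) (mix i τ σ) = σ := by
  funext k; simp only [mix]; split_ifs <;> rfl

/-- Prefix and suffix sums are independent. -/
lemma card_mul_card (a : Fin N → ℝ) (i : ℕ) (t : ℝ) :
    (univ.filter fun σ => t < |pre a i σ|).card * (univ.filter fun σ => t < |suf a i σ|).card =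
      (univ.filter fun σ => t < |pre a i σ| ∧ t < |suf a i σ|).card * 2 ^ N := by
  have h2 : (univ : Finset (Fin N → Bool)).card = 2 ^ N := by simp
  rw [← h2, ← card_product, ← card_product]
  refine card_nbij' (fun P => (mix i P.1 P.2, mix i P.2 P.1))
    (fun P => (mix i P.1 P.2, mix i P.2 P.1)) ?_ ?_ ?_ ?_
  · intro P hP
    simp only [coe_product, Set.mem_prod, coe_filter, mem_univ, true_and, coe_univ, Set.mem_univ,
      and_true, Set.mem_ofPred_eq] at hP ⊢
    rw [pre_mix, suf_mix]; exact hP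
  · intro P hP
    simp only [coe_product, Set.mem_prod, coe_filter, mem_univ, true_and, coe_univ, Set.mem_univ,
      and_true, Set.mem_ofPred_eq] at hP ⊢
    rw [pre_mix, suf_mix]; exact hP
  · intro P _; simp only [mix_mix]
  · intro P _; simp only [mix_mix]

lemma card_markov {ι : Type*} [Fintype ι] (F : ι → ℝ) (hF : ∀ x, 0 ≤ F x) {t S : ℝ}
    (hS : ∑ x, F x ≤ S) : ((univ.filter fun x => t < F x).card : ℝ) * t ≤ S := by
  refine le_trans ?_ ((sum_le_sum_of_subset_of_nonneg (filter_subset (fun x => t < F x) univ)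
    fun x _ _ => hF x).trans hS)
  rw [← nsmul_eq_mul]
  exact card_nsmul_le_sum _ _ _ fun x hx => (mem_filter.1 hx).2.le

/-- If all signed sums have about the same size as the plain sum, one term dominates it. -/
theorem abs_sum_le_of_signs (a : Fin N → ℝ) (hN : 0 < N) {φ : ℝ} (hφ : 0 < φ)
    (h : ∑ σ, |(|Z a σ| - |∑ k, a k|)| ≤ (2 : ℝ) ^ N * φ) :
    ∃ k, |∑ j, a j| ≤ |a k| + 36 * φ := by
  classical
  set S := ∑ k, a k
  set dev : (Fin N → Bool) → ℝ := fun σ => |(|Z a σ| - |S|)| with hdev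
  set E := univ.filter fun σ => 4 * φ < dev σ with hE
  have hcard : ((univ : Finset (Fin N → Bool)).card : ℝ) = (2 : ℝ) ^ N := by simp
  have h2N : (0 : ℝ) < (2 : ℝ) ^ N := by positivity
  have hEc : (E.card : ℝ) * 4 ≤ (2 : ℝ) ^ N := by
    have := card_markov dev (fun _ => abs_nonneg _) (t := 4 * φ) h
    rw [← hE] at this
    nlinarith
  by_cases hall : ∀ i ≤ N, ((univ.filter fun σ => 16 * φ < |pre a i σ|).card : ℝ) * 4 < 2 ^ N
  · obtain ⟨σ, -, hσ⟩ : ∃ σ ∈ (univ : Finset (Fin N → Bool)),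
        σ ∉ (univ.filter fun σ => 16 * φ < |pre a N σ|) ∪ E := by
      refine exists_mem_notMem_of_card_lt_card ?_
      have hu := card_union_le (univ.filter fun σ => 16 * φ < |pre a N σ|) E
      have := hall N le_rfl
      rify at hu ⊢
      rw [hcard]
      nlinarith
    have hpre : pre a N σ = Z a σ := sum_congr rfl fun k _ => if_pos k.isLt
    simp only [mem_union, mem_filter, mem_univ, true_and, hE, not_or, not_lt, hpre, hdev] at hσ
    refine ⟨⟨0, hN⟩, ?_⟩
    have := abs_le.1 hσ.2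
    linarith [hσ.1, abs_nonneg (a ⟨0, hN⟩)]
  push Not at hall
  have hex : ∃ i, i ≤ N ∧ (2 : ℝ) ^ N ≤
      ((univ.filter fun σ => 16 * φ < |pre a i σ|).card : ℝ) * 4 := hall
  obtain ⟨hiN, hbig⟩ := Nat.find_spec hex
  have hi0 : Nat.find hex ≠ 0 := fun e => by
    rw [e] at hbig
    have hz : (univ.filter fun σ => 16 * φ < |pre a 0 σ|) = ∅ :=
      filter_eq_empty_iff.2 fun σ _ => by simp [pre]; linarith
    rw [hz] at hbig
    simp at hbig
    linarith
  obtain ⟨k, hk⟩ : ∃ k : Fin N, (k : ℕ) + 1 = Nat.find hex :=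
    ⟨⟨Nat.find hex - 1, by omega⟩, by simp only; omega⟩
  have hsmall : ((univ.filter fun σ => 16 * φ < |pre a k σ|).card : ℝ) * 4 < 2 ^ N := by
    by_contra hc
    exact Nat.find_min hex (show (k : ℕ) < Nat.find hex by omega) ⟨k.isLt.le, not_lt.1 hc⟩
  rw [← hk] at hbig
  -- few signs make both parts large
  set i := (k : ℕ) + 1
  have hmin : ∑ σ, min |pre a i σ| |suf a i σ| ≤ (2 : ℝ) ^ N * φ := by
    let flip : (Fin N → Bool) → (Fin N → Bool) := fun σ => mix i σ fun l => !(σ l)
    have hflip : Function.Involutive flip := fun σ => by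
      funext l; simp only [flip, mix]; split_ifs <;> simp
    have hZ : ∀ σ, Z a (flip σ) = pre a i σ - suf a i σ := fun σ => by
      rw [Z, pre, suf, ← sum_sub_distrib]
      refine sum_congr rfl fun l _ => ?_
      simp only [flip, mix]
      split_ifs <;> simp [sgn_not]
    have e : ∀ σ, 2 * min |pre a i σ| |suf a i σ| ≤ dev σ + dev (flip σ) := fun σ => by
      rw [← abs_abs_sub_abs, pre_add_suf, ← hZ]
      simp only [hdev]
      rw [abs_sub_comm |Z a (flip σ)| |S|]
      exact abs_sub_le _ _ _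
    have h1 := sum_le_sum fun σ (_ : σ ∈ (univ : Finset (Fin N → Bool))) => e σ
    rw [← mul_sum, sum_add_distrib,
      show ∑ σ, dev (flip σ) = ∑ σ, dev σ from (Equiv.sum_comp hflip.toPerm dev)] at h1
    linarith
  have hboth := card_markov (fun σ => min |pre a i σ| |suf a i σ|)
    (fun σ => le_min (abs_nonneg _) (abs_nonneg _)) (t := 16 * φ) hmin
  simp only [lt_min_iff] at hboth
  have hprod : ((univ.filter fun σ => 16 * φ < |pre a i σ|).card : ℝ) *
      ((univ.filter fun σ => 16 * φ < |suf a i σ|).card : ℝ) =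
      ((univ.filter fun σ => 16 * φ < |pre a i σ| ∧ 16 * φ < |suf a i σ|).card : ℝ) * 2 ^ N := by
    exact_mod_cast card_mul_card a i (16 * φ)
  have hsuf : ((univ.filter fun σ => 16 * φ < |suf a i σ|).card : ℝ) * 4 ≤ 2 ^ N := by
    set P := ((univ.filter fun σ => 16 * φ < |pre a i σ|).card : ℝ)
    set Q := ((univ.filter fun σ => 16 * φ < |suf a i σ|).card : ℝ) with hQ
    set B := ((univ.filter fun σ => 16 * φ < |pre a i σ| ∧ 16 * φ < |suf a i σ|).card : ℝ)
    have hQ0 : 0 ≤ Q := Nat.cast_nonneg _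
    have hB : B * 16 ≤ 2 ^ N := by nlinarith
    nlinarith [mul_le_mul_of_nonneg_right hbig hQ0, mul_le_mul_of_nonneg_right hB h2N.le]
  obtain ⟨σ, -, hσ⟩ : ∃ σ ∈ (univ : Finset (Fin N → Bool)),
      σ ∉ (univ.filter fun σ => 16 * φ < |pre a k σ|) ∪
        ((univ.filter fun σ => 16 * φ < |suf a i σ|) ∪ E) := by
    refine exists_mem_notMem_of_card_lt_card ?_
    have hu := card_union_le (univ.filter fun σ => 16 * φ < |pre a k σ|)
      ((univ.filter fun σ => 16 * φ < |suf a i σ|) ∪ E)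
    have hv := card_union_le (univ.filter fun σ => 16 * φ < |suf a i σ|) E
    rify at hu hv ⊢
    rw [hcard]
    nlinarith
  simp only [mem_union, mem_filter, mem_univ, true_and, hE, not_or, not_lt, hdev] at hσ
  obtain ⟨h1, h2, h3⟩ := hσ
  refine ⟨k, ?_⟩
  have hz := pre_add_suf a i σ
  rw [pre_succ] at hz
  have hs : |sgn (σ k) * a k| = |a k| := by
    rw [abs_mul]; cases σ k <;> simp [sgn]
  have := abs_le.1 h3
  have := abs_add_three (pre a k σ) (sgn (σ k) * a k) (suf a i σ)
  rw [hz, hs] at this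
  linarith

end Vale.Agent.P249.PolyLower
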