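import Vale.Agent.P249.PolyLower.Scalar
import Vale.Agent.P249.PolyLower.Grid

/-! # One step: the mass above a threshold adds over the coordinates of a fine grid -/

namespace Vale.Agent.P249.PolyLower

open Finset

variable {N d : ℕ}

/-- The averaging family: a box slid along the diagonal. -/
noncomputable def sweep (N B T : ℕ) : Finset ((Fin N → ℤ) × ℕ) := box N B ×ˢ range T

/-- The point of a member of the averaging family. -/
def pos (P : (Fin N → ℤ) × ℕ) : Fin N → ℤ := P.1 + fun _ => (P.2 : ℤ)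

/-- The parameters of a step: grid radius, smoothing box, segment, sliding box, length. -/
structure Scales where
  M : ℕ
  R : ℕ
  L : ℕ
  B : ℕ
  T : ℕ

/-- What the parameters must satisfy, with slack `δ` and errors `e₁, …, e₄`. -/
structure Scales.Fits (S : Scales) (N : ℕ) (p D δ e₁ e₂ e₃ e₄ : ℝ) : Prop where
  hR : 0 < S.R
  hL : 0 < S.L
  hB : 0 < S.B
  hT : 0 < S.T
  hM : S.B + S.T + 2 * S.L + S.R + 6 ≤ S.M
  h₁ : N * (2 * (N / S.R * D)) ≤ e₁
  h₂ : 2 * (D * (N * S.R)) / S.L ≤ e₂
  h₂' : e₂ ≤ 1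
  h₃ : N * S.L / S.B * (D * N) ^ p ≤ e₃
  h₄ : 2 * (D * (N * S.B) + D * (N * S.R)) / S.T ≤ e₄
  up : (D + e₁) ^ p ≤ 1 + δ
  low : 1 - δ ≤ ((1 - e₂) ^ p - e₃) / (1 + e₁) ^ p - e₁

lemma rpow_add_le_mul {p u e : ℝ} (hp : 1 ≤ p) (hu : 0 ≤ u) (he : 0 ≤ e) :
    (u + e) ^ p ≤ (1 + e) ^ p * (u ^ p + e) := by
  have h1 : (0 : ℝ) < 1 + e := by linarith
  have hc := (convexOn_rpow hp).2 (Set.mem_Ici.2 hu) (Set.mem_Ici.2 zero_le_one)
    (show 0 ≤ 1 / (1 + e) by positivity) (show 0 ≤ e / (1 + e) by positivity)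
    (by field_simp)
  simp only [smul_eq_mul, mul_one, Real.one_rpow] at hc
  rw [show 1 / (1 + e) * u + e / (1 + e) = (u + e) / (1 + e) by ring,
    Real.div_rpow (by linarith) h1.le, div_le_iff₀ (by positivity)] at hc
  refine hc.trans (le_trans (le_of_eq (show _ = (u ^ p + e) / (1 + e) * (1 + e) ^ p by ring)) ?_)
  rw [mul_comm ((1 + e) ^ p)]
  gcongr
  exact div_le_self (by positivity) (by linarith)

section Avg

variable {p D δ e₁ e₂ e₃ e₄ : ℝ} {S : Scales} {f : (Fin N → ℤ) → Fin d → ℝ}

lemma within_pos {P : (Fin N → ℤ) × ℕ} {B T : ℕ} (hP : P ∈ sweep N B T) :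
    Within (B + T) (pos P) := fun i => by
  simp only [sweep, mem_product, mem_range] at hP
  have := mem_box.1 hP.1 i
  simp only [pos, Pi.add_apply]
  rw [abs_of_nonneg (by omega)]
  omega

lemma card_sweep (B T : ℕ) : ((sweep N B T).card : ℝ) = (B : ℝ) ^ N * T := by
  simp [sweep, card_box]

lemma sum_sweep_shift {B T Z : ℕ} (hB : 0 < B) (z : Fin N → ℤ) (hz : Within Z z)
    (F : (Fin N → ℤ) → ℝ) (hF : ∀ y, 0 ≤ F y) {K : ℝ}
    (hK : ∀ P ∈ sweep N B T, F (pos P + z) ≤ K) :
    ∑ P ∈ sweep N B T, F (pos P + z) ≤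
      ∑ P ∈ sweep N B T, F (pos P) + (sweep N B T).card * (N * Z / B * K) := by
  rw [card_sweep]
  simp only [sweep, sum_product_right]
  calc ∑ t ∈ range T, ∑ y ∈ box N B, F (pos (y, t) + z)
      ≤ ∑ t ∈ range T, (∑ y ∈ box N B, F (pos (y, t)) + (B : ℝ) ^ N * (N * Z / B * K)) := by
        refine sum_le_sum fun t ht => ?_
        have hK' : ∀ y ∈ box N B, F ((y + z) + fun _ => (t : ℤ)) ≤ K := fun y hy => by
          have := hK (y, t) (by simp [sweep, hy, mem_range.1 ht])
          rwa [pos, add_right_comm] at this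
        have h := sum_box_shift hB z hz (fun y => F (y + fun _ => (t : ℤ))) (fun y => hF _) hK'
        refine le_trans (le_of_eq (sum_congr rfl fun y _ => ?_)) h
        simp only [pos, add_right_comm]
    _ = _ := by rw [sum_add_distrib, sum_const, card_range, nsmul_eq_mul]; ring

/-- The mass of the linearised increment, averaged. -/
noncomputable def energy (p : ℝ) (S : Scales) (f : (Fin N → ℤ) → Fin d → ℝ) (x : Fin N → ℤ) : ℝ :=
  ∑ P ∈ sweep N S.B S.T, nm p (lin S.R f x (pos P)) ^ p

/-- The number of non-zero entries of a `0, ±1` vector. -/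
noncomputable def supp (x : Fin N → ℤ) : ℝ := ∑ i, |(x i : ℝ)|

lemma znm_rpow (hp : 1 ≤ p) {x : Fin N → ℤ} (hx : Within 1 x) : znm p x ^ p = supp x := by
  rw [znm, nm_rpow hp]
  refine sum_congr rfl fun i _ => ?_
  have := abs_le.1 (hx i)
  rcases (show x i = -1 ∨ x i = 0 ∨ x i = 1 by omega) with h | h | h <;>
    simp [h, Real.zero_rpow (show p ≠ 0 by linarith)]

lemma one_le_supp {x : Fin N → ℤ} (hx : x ≠ 0) : 1 ≤ supp x := by
  obtain ⟨i, hi⟩ : ∃ i, x i ≠ 0 := by
    by_contra h; push Not at h; exact hx (funext h)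
  refine le_trans ?_ (single_le_sum (f := fun i => |(x i : ℝ)|) (fun i _ => abs_nonneg _) (mem_univ i))
  have : (1 : ℤ) ≤ |x i| := Int.one_le_abs hi
  exact_mod_cast this

lemma supp_le {x : Fin N → ℤ} (hx : Within 1 x) : supp x ≤ N := by
  calc supp x ≤ ∑ _i : Fin N, (1 : ℝ) := sum_le_sum fun i _ => by
        have h : |x i| ≤ (1 : ℤ) := by simpa using hx i
        exact_mod_cast h
    _ = N := by simp

variable (hp : 1 ≤ p) (hD : 0 ≤ D) (hδ : 0 ≤ δ) (hf : GridMap p D S.M f)
  (hS : S.Fits N p D δ e₁ e₂ e₃ e₄)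

include hp hD hδ hf hS in
lemma energy_close {x : Fin N → ℤ} (hx : Within 1 x) :
    |energy p S f x - (sweep N S.B S.T).card * supp x| ≤ (sweep N S.B S.T).card * (δ * N) := by
  by_cases h0 : x = 0
  · subst h0
    have : ∀ y, lin S.R f (0 : Fin N → ℤ) y = 0 := fun y => by simp [lin]
    simp only [energy, this, nm_zero hp, Real.zero_rpow (show p ≠ 0 by linarith), sum_const_zero,
      supp, Pi.zero_apply, Int.cast_zero, abs_zero, mul_zero, sub_zero]
    positivity
  have hm1 := one_le_supp h0
  have hmN := supp_le hx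
  have hz := znm_rpow hp hx
  have he1 : 0 ≤ e₁ := le_trans (by positivity) hS.h₁
  have hz0 : 0 ≤ znm p x := nm_nonneg _
  have hz1 : 1 ≤ znm p x := by
    by_contra h
    have := Real.rpow_lt_one hz0 (not_le.1 h) (by linarith : 0 < p)
    linarith
  have hM := hS.hM
  have hcard : 0 < ((sweep N S.B S.T).card : ℝ) := by
    rw [card_sweep]; have := hS.hB; have := hS.hT; positivity
  set Δ := fun y => nm p (smooth S.R f (y + x) - smooth S.R f y) with hΔ
  have herr : ∀ P ∈ sweep N S.B S.T,
      nm p (smooth S.R f (pos P + x) - smooth S.R f (pos P) - lin S.R f x (pos P)) ≤ e₁ :=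
    fun P hP => (lin_error hp hD hS.hR hf (within_pos hP) hx (by omega)).trans hS.h₁
  rw [abs_le]
  constructor
  · -- lower bound
    have hlow : ∀ P ∈ sweep N S.B S.T, supp x * (1 - e₂) ^ p ≤
        (∑ i ∈ range S.L, Δ (pos P + (i : ℤ) • x) ^ p) / S.L := by
      intro P hP
      have hLx : Within S.L ((S.L : ℤ) • x) := fun i => by
        simp only [Pi.smul_apply, smul_eq_mul, abs_mul, Nat.abs_cast]
        have h1 : |x i| ≤ 1 := by simpa using hx i
        exact mul_le_of_le_one_right (by positivity) h1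
      have h1 := smooth_lower hp hD hS.hR hf (within_pos hP) hLx (by omega)
      rw [znm_smul hp] at h1
      have h2 : smooth S.R f (pos P + (S.L : ℤ) • x) - smooth S.R f (pos P) =
          ∑ i ∈ range S.L, (smooth S.R f (pos P + (i : ℤ) • x + x) -
            smooth S.R f (pos P + (i : ℤ) • x)) := by
        have := sum_range_sub (fun i : ℕ => smooth S.R f (pos P + (i : ℤ) • x)) S.L
        simp only [Nat.cast_zero, zero_smul, add_zero] at this
        rw [← this]
        refine sum_congr rfl fun i _ => ?_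
        rw [Nat.cast_add, Nat.cast_one, add_smul, one_smul, ← add_assoc]
      rw [h2] at h1
      have h3 := h1.trans (nm_sum_le hp _ _)
      have hLr : (0 : ℝ) < S.L := by exact_mod_cast hS.hL
      have h4 : znm p x * (1 - e₂) ≤ (∑ i ∈ range S.L, Δ (pos P + (i : ℤ) • x)) / S.L := by
        rw [le_div_iff₀ hLr]
        have h5 := mul_le_mul_of_nonneg_right hS.h₂ hLr.le
        rw [div_mul_cancel₀ _ hLr.ne'] at h5
        have he2 : 0 ≤ e₂ * S.L := le_trans (by positivity) h5
        nlinarith [mul_nonneg he2 (sub_nonneg.2 hz1)]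
      have h6 := (Real.rpow_le_rpow (mul_nonneg hz0 (by linarith [hS.h₂'])) h4
        (by linarith : 0 ≤ p))
      rw [Real.mul_rpow hz0 (by linarith [hS.h₂']), hz] at h6
      refine h6.trans ?_
      have := rpow_avg_le hp (S := range S.L) (nonempty_range_iff.2 hS.hL.ne')
        (fun i => Δ (pos P + (i : ℤ) • x)) fun i _ => nm_nonneg _
      simpa using this
    have hshift : ∀ i ∈ range S.L, ∑ P ∈ sweep N S.B S.T, Δ (pos P + (i : ℤ) • x) ^ p ≤
        ∑ P ∈ sweep N S.B S.T, Δ (pos P) ^ p + (sweep N S.B S.T).card * e₃ := by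
      intro i hi
      have hiL := mem_range.1 hi
      have hix : Within S.L ((i : ℤ) • x) := fun j => by
        simp only [Pi.smul_apply, smul_eq_mul, abs_mul, Nat.abs_cast]
        have h1 : |x j| ≤ 1 := by simpa using hx j
        exact (mul_le_of_le_one_right (by positivity) h1).trans (by omega)
      refine (sum_sweep_shift hS.hB _ hix (fun y => Δ y ^ p) (fun y => by
        exact Real.rpow_nonneg (nm_nonneg _) _) (K := (D * N) ^ p) fun P hP => ?_).trans ?_
      · refine Real.rpow_le_rpow (nm_nonneg _) ?_ (by linarith)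
        refine (smooth_upper hp hS.hR hf ((within_pos hP).add hix le_rfl) hx (by omega)).trans ?_
        exact mul_le_mul_of_nonneg_left ((znm_le hp hx).trans (by simp)) hD
      · gcongr
        exact hS.h₃
    have hΔlin : ∀ P ∈ sweep N S.B S.T, Δ (pos P) ^ p ≤
        (1 + e₁) ^ p * (nm p (lin S.R f x (pos P)) ^ p + e₁) := by
      intro P hP
      refine le_trans (Real.rpow_le_rpow (nm_nonneg _) ?_ (by linarith))
        (rpow_add_le_mul hp (nm_nonneg _) he1)
      exact (nm_le_add hp _ (lin S.R f x (pos P))).trans (by linarith [herr P hP])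
    set C := ((sweep N S.B S.T).card : ℝ) with hC
    have s1 : C * (supp x * (1 - e₂) ^ p) ≤
        (∑ P ∈ sweep N S.B S.T, Δ (pos P) ^ p) + C * e₃ := by
      have hLr : (0 : ℝ) < S.L := by exact_mod_cast hS.hL
      refine le_trans ?_ (le_of_eq (show (((S.L : ℝ) * ((∑ P ∈ sweep N S.B S.T, Δ (pos P) ^ p) +
        C * e₃)) / S.L) = _ by field_simp))
      rw [hC, ← nsmul_eq_mul, ← sum_const]
      refine (sum_le_sum hlow).trans ?_
      rw [← sum_div, sum_comm]
      refine div_le_div_of_nonneg_right ?_ hLr.le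
      refine (sum_le_sum hshift).trans (le_of_eq ?_)
      rw [sum_const, card_range, nsmul_eq_mul]
    have s2 : (∑ P ∈ sweep N S.B S.T, Δ (pos P) ^ p) ≤ (1 + e₁) ^ p * (energy p S f x + C * e₁) := by
      refine (sum_le_sum hΔlin).trans (le_of_eq ?_)
      rw [← mul_sum, sum_add_distrib, sum_const, nsmul_eq_mul, energy]
    have h1e : (0 : ℝ) < (1 + e₁) ^ p := by positivity
    have he3 : 0 ≤ e₃ := le_trans (by positivity) hS.h₃
    have hlow' := hS.low
    have key : C * (supp x * (((1 - e₂) ^ p - e₃) / (1 + e₁) ^ p - e₁)) ≤ energy p S f x := by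
      have e : C * (supp x * (((1 - e₂) ^ p - e₃) / (1 + e₁) ^ p - e₁)) =
          (C * (supp x * (1 - e₂) ^ p) - supp x * (C * e₃)) / (1 + e₁) ^ p -
            supp x * (C * e₁) := by ring
      rw [e, sub_le_iff_le_add, div_le_iff₀ h1e]
      have a1 : C * e₃ ≤ supp x * (C * e₃) := le_mul_of_one_le_left (by positivity) hm1
      have a2 : C * e₁ ≤ supp x * (C * e₁) := le_mul_of_one_le_left (by positivity) hm1
      nlinarith [mul_le_mul_of_nonneg_left a2 h1e.le]
    have a3 : C * (supp x * (1 - δ)) ≤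
        C * (supp x * (((1 - e₂) ^ p - e₃) / (1 + e₁) ^ p - e₁)) := by gcongr
    nlinarith [mul_le_mul_of_nonneg_left hmN (mul_nonneg hcard.le hδ)]
  · -- upper bound
    have hup : ∀ P ∈ sweep N S.B S.T, nm p (lin S.R f x (pos P)) ^ p ≤ (1 + δ) * supp x := by
      intro P hP
      have h1 := smooth_upper hp hS.hR hf (within_pos hP) hx (by omega)
      have h2 := nm_le_add hp (lin S.R f x (pos P)) (smooth S.R f (pos P + x) - smooth S.R f (pos P))
      rw [nm_sub_comm (lin S.R f x (pos P))] at h2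
      have h3 : nm p (lin S.R f x (pos P)) ≤ (D + e₁) * znm p x := by
        have := herr P hP
        nlinarith [mul_le_mul_of_nonneg_left hz1 he1]
      calc _ ≤ ((D + e₁) * znm p x) ^ p := Real.rpow_le_rpow (nm_nonneg _) h3 (by linarith)
        _ = (D + e₁) ^ p * supp x := by rw [Real.mul_rpow (by linarith) hz0, hz]
        _ ≤ _ := by gcongr; exact hS.up
    have := sum_le_card_nsmul _ _ _ hup
    rw [nsmul_eq_mul, ← energy] at this
    nlinarith [mul_le_mul_of_nonneg_left hmN (mul_nonneg hcard.le hδ)]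

lemma lin_apply (R : ℕ) (f : (Fin N → ℤ) → Fin d → ℝ) (x y : Fin N → ℤ) (c : Fin d) :
    lin R f x y c = ∑ k, (x k : ℝ) * inc R f k y c := by
  simp [lin, Finset.sum_apply]

/-- The signed vector of a sign pattern and its positive and negative parts. -/
def sgv (σ : Fin N → Bool) : Fin N → ℤ := fun k => if σ k then 1 else -1

/-- The positive part. -/
def posv (σ : Fin N → Bool) : Fin N → ℤ := fun k => if σ k then 1 else 0

/-- The negative part. -/
def negv (σ : Fin N → Bool) : Fin N → ℤ := fun k => if σ k then 0 else 1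

include hp hD hδ hf hS in
lemma sum_dev_le (hp2 : p ≠ 2) (σ : Fin N → Bool) :
    ∑ P ∈ sweep N S.B S.T, ∑ c, |(|lin S.R f (sgv σ) (pos P) c| -
        |lin S.R f (fun _ => 1) (pos P) c|)| ^ p ≤
      (sweep N S.B S.T).card * (2 ^ p * (6 * δ * N / |p - 2|)) := by
  have hp0 : 0 < |p - 2| := abs_pos.2 (sub_ne_zero.2 hp2)
  set C := ((sweep N S.B S.T).card : ℝ)
  have w1 : Within 1 (sgv σ) := fun i => by simp only [sgv]; split_ifs <;> simp
  have w2 : Within 1 (posv σ) := fun i => by simp only [posv]; split_ifs <;> simp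
  have w3 : Within 1 (negv σ) := fun i => by simp only [negv]; split_ifs <;> simp
  have w4 : Within 1 (fun _ : Fin N => (1 : ℤ)) := fun i => by simp
  have hcomb : ∀ y c, lin S.R f (fun _ => 1) y c = lin S.R f (posv σ) y c + lin S.R f (negv σ) y c ∧
      lin S.R f (sgv σ) y c = lin S.R f (posv σ) y c - lin S.R f (negv σ) y c := by
    intro y c
    simp only [lin_apply, ← sum_add_distrib, ← sum_sub_distrib]
    constructor <;> refine sum_congr rfl fun k _ => ?_ <;> simp only [sgv, posv, negv] <;>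
      split_ifs <;> push_cast <;> ring
  have hpt : ∀ P : (Fin N → ℤ) × ℕ, ∀ c, |(|lin S.R f (sgv σ) (pos P) c| -
      |lin S.R f (fun _ => 1) (pos P) c|)| ^ p ≤ 2 ^ p / |p - 2| *
        defect p (lin S.R f (posv σ) (pos P) c) (lin S.R f (negv σ) (pos P) c) := by
    intro P c
    obtain ⟨e1, e2⟩ := hcomb (pos P) c
    rw [e1, e2, abs_sub_comm, abs_abs_sub_abs, Real.mul_rpow (by norm_num)
      (le_min (abs_nonneg _) (abs_nonneg _)), div_mul_eq_mul_div, le_div_iff₀ hp0, mul_assoc,
      mul_comm (min _ _ ^ p)]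
    exact mul_le_mul_of_nonneg_left (min_le_defect hp) (by positivity)
  refine (sum_le_sum fun P _ => sum_le_sum fun c _ => hpt P c).trans ?_
  have he : ∑ P ∈ sweep N S.B S.T, ∑ c, defect p (lin S.R f (posv σ) (pos P) c)
      (lin S.R f (negv σ) (pos P) c) = (if 2 < p then 1 else -1) *
        (energy p S f (fun _ => 1) + energy p S f (sgv σ) - 2 * energy p S f (posv σ) -
          2 * energy p S f (negv σ)) := by
    simp only [energy, nm_rpow hp, mul_sum, ← sum_add_distrib, ← sum_sub_distrib, defect]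
    refine sum_congr rfl fun P _ => sum_congr rfl fun c _ => ?_
    obtain ⟨e1, e2⟩ := hcomb (pos P) c
    rw [e1, e2]
  have hsup : supp (fun _ : Fin N => (1 : ℤ)) + supp (sgv σ) - 2 * supp (posv σ) -
      2 * supp (negv σ) = 0 := by
    simp only [supp, mul_sum, ← sum_add_distrib, ← sum_sub_distrib]
    refine sum_eq_zero fun k _ => ?_
    simp only [sgv, posv, negv]
    split_ifs <;> norm_num
  simp only [← mul_sum]
  rw [he]
  have a1 := abs_le.1 (energy_close hp hD hδ hf hS w1)
  have a2 := abs_le.1 (energy_close hp hD hδ hf hS w2)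
  have a3 := abs_le.1 (energy_close hp hD hδ hf hS w3)
  have a4 := abs_le.1 (energy_close hp hD hδ hf hS w4)
  have hz : C * supp (fun _ : Fin N => (1 : ℤ)) + C * supp (sgv σ) - 2 * (C * supp (posv σ)) -
      2 * (C * supp (negv σ)) = 0 := by
    linear_combination C * hsup
  rw [show C * (2 ^ p * (6 * δ * N / |p - 2|)) = 2 ^ p / |p - 2| * (6 * (C * (δ * N))) by ring]
  refine mul_le_mul_of_nonneg_left ?_ (by positivity)
  split_ifs <;> linarith

include hp hD hδ hf hS in
/-- One step: the excess over the threshold grows by `γ` only. -/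
theorem exc_main (hp2 : p ≠ 2) (hN : 0 < N) {s η : ℝ} (hη : 0 ≤ η)
    (hedge : ∀ k z, Within S.M z → Within S.M (z + Pi.single k 1) →
      exc p s (f (z + Pi.single k 1) - f z) ≤ η) :
    exc p s ((S.T : ℝ)⁻¹ • (f (fun _ => (S.T : ℤ)) - f 0)) ≤
      (N : ℝ) ^ (1 / p) * (η + (72 * (6 * δ / |p - 2|) ^ (1 / p) + e₁ + e₄)) := by
  classical
  have hp0 : (0 : ℝ) < p := by linarith
  have hM := hS.hM
  set Y := sweep N S.B S.T with hY
  have hYne : Y.Nonempty := by
    rw [hY, sweep]
    exact (box_nonempty hS.hB).product (nonempty_range_iff.2 hS.hT.ne')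
  have hYc : (0 : ℝ) < Y.card := by exact_mod_cast hYne.card_pos
  set one : Fin N → ℤ := fun _ => 1
  set W := mean Y fun P => lin S.R f one (pos P) with hW
  -- the segment is close to the mean linearised increment
  have hclose : nm p ((S.T : ℝ)⁻¹ • (f (fun _ => (S.T : ℤ)) - f 0) - W) ≤ e₄ + e₁ := by
    have hTr : (0 : ℝ) < S.T := by exact_mod_cast hS.hT
    set V := mean Y fun P => smooth S.R f (pos P + one) - smooth S.R f (pos P)
    have hVW : nm p (V - W) ≤ e₁ := by
      rw [show V - W = mean Y fun P => smooth S.R f (pos P + one) - smooth S.R f (pos P) -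
          lin S.R f one (pos P) by
        funext c; simp [V, W, mean, sum_sub_distrib, sub_div]]
      refine (nm_mean_le hp _ _).trans ?_
      rw [div_le_iff₀ hYc, mul_comm, ← nsmul_eq_mul]
      exact sum_le_card_nsmul _ _ _ fun P hP =>
        (lin_error hp hD hS.hR hf (within_pos hP) (fun i => by simp [one]) (by omega)).trans hS.h₁
    have hV : nm p ((S.T : ℝ)⁻¹ • (f (fun _ => (S.T : ℤ)) - f 0) - V) ≤ e₄ := by
      have e : (S.T : ℝ)⁻¹ • (f (fun _ => (S.T : ℤ)) - f 0) - V = (S.T : ℝ)⁻¹ •
          mean (box N S.B) fun y => (f (fun _ => (S.T : ℤ)) - smooth S.R f (y + fun _ => (S.T : ℤ))) +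
            (smooth S.R f y - f 0) := by
        funext c
        have htel : ∑ P ∈ Y, (smooth S.R f (pos P + one) c - smooth S.R f (pos P) c) =
            ∑ y ∈ box N S.B, (smooth S.R f (y + fun _ => (S.T : ℤ)) c - smooth S.R f y c) := by
          rw [hY, sweep, sum_product]
          refine sum_congr rfl fun y _ => ?_
          have := sum_range_sub (fun t : ℕ => smooth S.R f (y + fun _ => (t : ℤ)) c) S.T
          simp only [Nat.cast_zero] at this
          rw [show (y + fun _ : Fin N => (0 : ℤ)) = y by funext i; simp] at this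
          rw [← this]
          refine sum_congr rfl fun t _ => ?_
          rw [show pos (y, t) + one = y + fun _ => ((t + 1 : ℕ) : ℤ) by
            funext i; simp [pos, one, add_assoc]]
          rfl
        have hBN : ((box N S.B).card : ℝ) ≠ 0 := by
          exact_mod_cast (box_nonempty hS.hB).card_pos.ne'
        simp only [V, mean, Pi.sub_apply, Pi.smul_apply, Pi.add_apply, smul_eq_mul]
        rw [htel, show (Y.card : ℝ) = (box N S.B).card * S.T by simp [hY, sweep]]
        simp only [sum_add_distrib, sum_sub_distrib, sum_const, nsmul_eq_mul]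
        field_simp
        ring
      rw [e, nm_smul hp, abs_of_pos (inv_pos.2 hTr), inv_mul_le_iff₀ hTr]
      refine (nm_mean_le hp _ _).trans ?_
      have hbc : (0 : ℝ) < (box N S.B).card := by exact_mod_cast (box_nonempty hS.hB).card_pos
      rw [div_le_iff₀ hbc, mul_comm, ← nsmul_eq_mul]
      refine sum_le_card_nsmul _ _ _ fun y hy => ?_
      have wy := within_box hy
      have wT : Within S.T (fun _ : Fin N => (S.T : ℤ)) := fun i => by simp
      have n1 := smooth_near hp hD hS.hR hf (wy.add wT le_rfl) (show S.B + S.T + S.R ≤ S.M by omega)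
      have n2 := smooth_near hp hD hS.hR hf wy (show S.B + S.R ≤ S.M by omega)
      have n3 := hf.up (y + fun _ => (S.T : ℤ)) (fun _ => (S.T : ℤ)) (wy.add wT (by omega))
        (wT.mono (by omega))
      have n4 := hf.up y 0 (wy.mono (by omega)) fun i => by simp
      rw [add_sub_cancel_right] at n3
      rw [sub_zero] at n4
      have n5 : D * znm p y ≤ D * (N * S.B) := mul_le_mul_of_nonneg_left (znm_le hp wy) hD
      have n6 := nm_add_le hp (f (fun _ => (S.T : ℤ)) - smooth S.R f (y + fun _ => (S.T : ℤ)))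
        (smooth S.R f y - f 0)
      have n7 := nm_add_le hp (f (fun _ => (S.T : ℤ)) - f (y + fun _ => (S.T : ℤ)))
        (f (y + fun _ => (S.T : ℤ)) - smooth S.R f (y + fun _ => (S.T : ℤ)))
      have n8 := nm_add_le hp (smooth S.R f y - f y) (f y - f 0)
      rw [sub_add_sub_cancel] at n7 n8
      rw [nm_sub_comm] at n1 n3
      have h4 := mul_le_mul_of_nonneg_right hS.h₄ hTr.le
      rw [div_mul_cancel₀ _ hTr.ne'] at h4
      linarith
    have := nm_add_le hp ((S.T : ℝ)⁻¹ • (f (fun _ => (S.T : ℤ)) - f 0) - V) (V - W)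
    rw [sub_add_sub_cancel] at this
    linarith
  -- pointwise domination
  set dev := fun (σ : Fin N → Bool) (P : (Fin N → ℤ) × ℕ) (c : Fin d) =>
    |(|lin S.R f (sgv σ) (pos P) c| - |lin S.R f one (pos P) c|)| with hdev
  set φ := fun (P : (Fin N → ℤ) × ℕ) (c : Fin d) => (∑ σ, dev σ P c) / (2 : ℝ) ^ N with hφ
  have hc2 : ((univ : Finset (Fin N → Bool)).card : ℝ) = (2 : ℝ) ^ N := by simp
  have hexc : ∀ P ∈ Y, exc p s (lin S.R f one (pos P)) ≤
      (N : ℝ) ^ (1 / p) * η + 36 * nm p (φ P) := by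
    intro P hP
    set A := fun c => (∑ k, max (|inc S.R f k (pos P) c| - s) 0 ^ p) ^ (1 / p) with hA
    have hφ0 : ∀ c, 0 ≤ φ P c := fun c => by positivity
    have hpt : ∀ c, max (|lin S.R f one (pos P) c| - s) 0 ≤ A c + 36 * φ P c := by
      intro c
      have hA0 : 0 ≤ A c := by positivity
      refine max_le ?_ (by have := hφ0 c; linarith)
      refine le_of_forall_pos_le_add fun ε hε => ?_
      have hsum : lin S.R f one (pos P) c = ∑ k, inc S.R f k (pos P) c := by
        simp [lin_apply, one]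
      obtain ⟨k, hk⟩ := abs_sum_le_of_signs (fun k => inc S.R f k (pos P) c) hN
        (show 0 < φ P c + ε / 36 by have := hφ0 c; linarith) (by
          have e : ∀ σ, |(|Z (fun k => inc S.R f k (pos P) c) σ| -
              |∑ k, inc S.R f k (pos P) c|)| = dev σ P c := fun σ => by
            simp only [hdev, hsum]
            congr 2
            simp only [lin_apply, Z, sgn, sgv]
            push_cast
            rfl
          rw [sum_congr rfl fun σ _ => e σ]
          have : (2 : ℝ) ^ N * φ P c = ∑ σ, dev σ P c := by simp [hφ]; field_simp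
          nlinarith [show (0 : ℝ) < 2 ^ N by positivity])
      rw [← hsum] at hk
      have hka : |inc S.R f k (pos P) c| - s ≤ A c := by
        refine (le_max_left _ 0).trans ?_
        have h := single_le_sum (f := fun k => max (|inc S.R f k (pos P) c| - s) 0 ^ p)
          (fun k _ => Real.rpow_nonneg (le_max_right _ _) _) (mem_univ k)
        have := Real.rpow_le_rpow (Real.rpow_nonneg (le_max_right _ _) _) h
          (show 0 ≤ 1 / p by positivity)
        rwa [← Real.rpow_mul (le_max_right _ _), mul_one_div_cancel hp0.ne', Real.rpow_one] at this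
      linarith
    refine le_trans (nm_mono hp (w := A + (36 : ℝ) • φ P) fun c => ?_) ?_
    · rw [abs_of_nonneg (le_max_right _ _)]
      refine (hpt c).trans (le_of_eq_of_le ?_ (le_abs_self _))
      simp
    refine (nm_add_le hp _ _).trans (add_le_add ?_ (le_of_eq (by rw [nm_smul hp]; norm_num)))
    have hAc : ∀ c, |A c| ^ p = ∑ k, max (|inc S.R f k (pos P) c| - s) 0 ^ p := fun c => by
      rw [abs_of_nonneg (by positivity), hA, ← Real.rpow_mul (by positivity),
        one_div_mul_cancel hp0.ne', Real.rpow_one]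
    rw [nm, sum_congr rfl fun c _ => hAc c, sum_comm]
    have hk : ∀ k : Fin N, ∑ c, max (|inc S.R f k (pos P) c| - s) 0 ^ p ≤ η ^ p := by
      intro k
      have h1 : exc p s (inc S.R f k (pos P)) ≤ η := by
        rw [inc_eq]
        refine (exc_mean_le hp _ (box_nonempty hS.hR) _).trans ?_
        rw [div_le_iff₀ (by exact_mod_cast (box_nonempty hS.hR).card_pos), mul_comm, ← nsmul_eq_mul]
        refine sum_le_card_nsmul _ _ _ fun r hr => hedge k _ ?_ ?_
        · exact (within_pos hP).add (within_box hr) (by omega)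
        · exact ((within_pos hP).add (within_box hr) le_rfl).add (within_single k) (by omega)
      have h2 := Real.rpow_le_rpow (exc_nonneg _ _) h1 hp0.le
      rw [exc, nm_rpow hp] at h2
      refine le_trans (le_of_eq (sum_congr rfl fun c _ => ?_)) h2
      rw [abs_of_nonneg (le_max_right (|inc S.R f k (pos P) c| - s) 0)]
    calc _ ≤ ((N : ℝ) * η ^ p) ^ (1 / p) := by
          refine Real.rpow_le_rpow (by positivity) ?_ (by positivity)
          refine (sum_le_sum fun k _ => hk k).trans (le_of_eq ?_)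
          simp
      _ = _ := by
          rw [Real.mul_rpow (Nat.cast_nonneg _) (by positivity), ← Real.rpow_mul hη,
            mul_one_div_cancel hp0.ne', Real.rpow_one]
  have hφp : ∑ P ∈ Y, nm p (φ P) ^ p ≤ Y.card * (2 ^ p * (6 * δ * N / |p - 2|)) := by
    have h1 : ∀ P ∈ Y, nm p (φ P) ^ p ≤ (∑ σ, ∑ c, dev σ P c ^ p) / (2 : ℝ) ^ N := by
      intro P _
      rw [nm_rpow hp, sum_comm, sum_div]
      refine sum_le_sum fun c _ => ?_
      rw [abs_of_nonneg (by positivity : 0 ≤ φ P c)]
      have := rpow_avg_le hp (S := (univ : Finset (Fin N → Bool))) univ_nonempty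
        (fun σ => dev σ P c) fun σ _ => abs_nonneg _
      rwa [hc2] at this
    refine (sum_le_sum h1).trans ?_
    rw [← sum_div, sum_comm, div_le_iff₀ (by positivity), mul_comm, ← hc2, ← nsmul_eq_mul]
    exact sum_le_card_nsmul _ _ _ fun σ _ => sum_dev_le hp hD hδ hf hS hp2 σ
  have havg : (∑ P ∈ Y, nm p (φ P)) / Y.card ≤
      (N : ℝ) ^ (1 / p) * (2 * (6 * δ / |p - 2|) ^ (1 / p)) := by
    refine (avg_le_rpow_avg hp hYne _ fun P _ => nm_nonneg _).trans ?_
    calc _ ≤ (2 ^ p * (6 * δ * N / |p - 2|)) ^ (1 / p) := by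
          refine Real.rpow_le_rpow ?_ ?_ (by positivity)
          · exact div_nonneg (sum_nonneg fun P _ => Real.rpow_nonneg (nm_nonneg _) _) hYc.le
          · rw [div_le_iff₀ hYc, mul_comm _ (Y.card : ℝ)]; exact hφp
      _ = _ := by
          rw [show 6 * δ * (N : ℝ) / |p - 2| = 6 * δ / |p - 2| * N by ring,
            Real.mul_rpow (by positivity) (by positivity),
            Real.mul_rpow (by positivity) (by positivity), ← Real.rpow_mul (by norm_num),
            mul_one_div_cancel hp0.ne', Real.rpow_one]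
          ring
  have hWexc : exc p s W ≤ (N : ℝ) ^ (1 / p) * (η + 72 * (6 * δ / |p - 2|) ^ (1 / p)) := by
    refine (exc_mean_le hp Y hYne _).trans ?_
    calc _ ≤ (∑ P ∈ Y, ((N : ℝ) ^ (1 / p) * η + 36 * nm p (φ P))) / Y.card := by
          gcongr with P hP
          exact hexc P hP
      _ = (N : ℝ) ^ (1 / p) * η + 36 * ((∑ P ∈ Y, nm p (φ P)) / Y.card) := by
          rw [sum_add_distrib, sum_const, nsmul_eq_mul, ← mul_sum]
          field_simp
      _ ≤ _ := by nlinarith
  have hN1 : (1 : ℝ) ≤ (N : ℝ) ^ (1 / p) :=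
    Real.one_le_rpow (by exact_mod_cast hN) (by positivity)
  have he14 : 0 ≤ e₄ + e₁ := le_trans (nm_nonneg _) hclose
  calc _ ≤ exc p s W + (e₄ + e₁) := (exc_le_add hp s _ W).trans (by linarith [hclose])
    _ ≤ _ := by nlinarith [mul_le_mul_of_nonneg_right hN1 he14]

end Avg

end Vale.Agent.P249.PolyLower
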