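import Vale.Agent.P249.PolyLower.Step

/-! # The nested grids and the dimension bound -/

namespace Vale.Agent.P249.PolyLower

open Finset

/-- The index set of level `j`: `N ^ j` blocks. -/
abbrev Idx (N j : ℕ) := Fin j → Fin N

variable {N d : ℕ} {p : ℝ}

/-- The grid point `z` shifted by a copy of `q` in the edge in direction `k`, scaled by `1 / T`. -/
noncomputable def emb {j : ℕ} (T : ℕ) (z : Fin N → ℤ) (k : Fin N) (q : Idx N j → ℝ) :
    Idx N (j + 1) → ℝ :=
  fun ω => ((z (ω 0) : ℝ) + if ω 0 = k then q (Fin.tail ω) else 0) / T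

/-- The grid point `z`, scaled by `1 / T`. -/
noncomputable def gpt (j : ℕ) (T : ℕ) (z : Fin N → ℤ) : Idx N (j + 1) → ℝ :=
  fun ω => (z (ω 0) : ℝ) / T

/-- The grid of radius `M`. -/
noncomputable def grid (N M : ℕ) : Finset (Fin N → ℤ) :=
  Fintype.piFinset fun _ => Finset.Icc (-(M : ℤ)) M

open Classical in
/-- The nested grids. -/
noncomputable def tower (N M T : ℕ) : (j : ℕ) → Finset (Idx N j → ℝ)
  | 0 => {0, 1}
  | j + 1 => ((grid N M ×ˢ (univ : Finset (Fin N))) ×ˢ tower N M T j).image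
      fun P => emb T P.1.1 P.1.2 P.2

lemma mem_grid {M : ℕ} {z : Fin N → ℤ} : z ∈ grid N M ↔ Within M z := by
  simp [grid, Within, abs_le]

lemma card_tower (M T j : ℕ) :
    (tower N M T j).card ≤ 2 * ((2 * M + 1) ^ N * N) ^ j := by
  classical
  induction j with
  | zero => simp only [tower, pow_zero, mul_one]; exact (card_insert_le _ _).trans (by simp)
  | succ j ih =>
    simp only [tower]
    refine card_image_le.trans ?_
    rw [card_product, card_product, pow_succ', card_univ, Fintype.card_fin]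
    have hg : (grid N M).card = (2 * M + 1) ^ N := by
      simp [grid, Fintype.card_piFinset, Int.card_Icc]
      congr 1
      omega
    rw [hg]
    calc (2 * M + 1) ^ N * N * (tower N M T j).card
        ≤ (2 * M + 1) ^ N * N * (2 * ((2 * M + 1) ^ N * N) ^ j) := by gcongr
      _ = _ := by ring

lemma sum_idx_succ {j : ℕ} (F : Fin N → (Idx N j) → ℝ) :
    ∑ ω : Idx N (j + 1), F (ω 0) (Fin.tail ω) = ∑ i, ∑ q : Idx N j, F i q := by
  rw [← (Fin.consEquiv fun _ : Fin (j + 1) => Fin N).sum_comp, Fintype.sum_prod_type]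
  simp [Fin.consEquiv]

lemma nm_gpt (hp : 1 ≤ p) (j T : ℕ) (z : Fin N → ℤ) :
    nm p (gpt j T z) = ((N : ℝ) ^ j) ^ (1 / p) / T * znm p z := by
  have e : gpt j T z = (T : ℝ)⁻¹ • fun ω : Idx N (j + 1) => (z (ω 0) : ℝ) := by
    funext ω; simp [gpt, div_eq_inv_mul]
  have e2 : nm p (fun ω : Idx N (j + 1) => (z (ω 0) : ℝ)) =
      ((N : ℝ) ^ j) ^ (1 / p) * znm p z := by
    rw [znm, nm, nm, sum_idx_succ (fun i _ => |(z i : ℝ)| ^ p), ← Real.mul_rpow (by positivity)
      (by positivity)]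
    congr 1
    simp [mul_sum]
  rw [e, nm_smul hp, e2, abs_of_nonneg (by positivity)]
  ring

lemma nm_emb_sub (hp : 1 ≤ p) {j : ℕ} (T : ℕ) (z : Fin N → ℤ) (k : Fin N) (q q' : Idx N j → ℝ) :
    nm p (emb T z k q - emb T z k q') = (T : ℝ)⁻¹ * nm p (q - q') := by
  have e : emb T z k q - emb T z k q' = (T : ℝ)⁻¹ • fun ω : Idx N (j + 1) =>
      if ω 0 = k then (q - q') (Fin.tail ω) else 0 := by
    funext ω; simp only [emb, Pi.sub_apply, Pi.smul_apply, smul_eq_mul]; split_ifs <;> ring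
  rw [e, nm_smul hp, abs_of_nonneg (by positivity)]
  congr 1
  rw [nm, nm]
  congr 1
  have e2 : ∀ ω : Idx N (j + 1), |if ω 0 = k then (q - q') (Fin.tail ω) else 0| ^ p =
      if ω 0 = k then |(q - q') (Fin.tail ω)| ^ p else 0 := fun ω => by
    split_ifs
    · rfl
    · rw [abs_zero, Real.zero_rpow (by linarith)]
  rw [sum_congr rfl fun ω _ => e2 ω,
    sum_idx_succ fun i r => if i = k then |(q - q') r| ^ p else 0, sum_comm]
  simp

lemma emb_zero {j : ℕ} (T : ℕ) (z : Fin N → ℤ) (k : Fin N) :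
    emb T z k (0 : Idx N j → ℝ) = gpt j T z := by funext ω; simp [emb, gpt]

lemma emb_one {j : ℕ} (T : ℕ) (z : Fin N → ℤ) (k : Fin N) :
    emb T z k (1 : Idx N j → ℝ) = gpt j T (z + Pi.single k 1) := by
  funext ω
  by_cases h : ω 0 = k <;> simp [emb, gpt, h]

lemma zero_one_mem (hN : 0 < N) {M T : ℕ} (hT : 0 < T) (hTM : T ≤ M) (j : ℕ) :
    (0 : Idx N j → ℝ) ∈ tower N M T j ∧ (1 : Idx N j → ℝ) ∈ tower N M T j := by
  classical
  induction j with
  | zero => simp [tower]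
  | succ j ih =>
    have hT0 : (T : ℝ) ≠ 0 := by exact_mod_cast hT.ne'
    simp only [tower, mem_image, mem_product, mem_univ, and_true, mem_grid]
    refine ⟨⟨((0, ⟨0, hN⟩), 0), ⟨fun i => by simp, ih.1⟩, ?_⟩,
      ⟨((fun _ => (T : ℤ), ⟨0, hN⟩), 0), ⟨fun i => by simp [hTM], ih.1⟩, ?_⟩⟩
    · funext ω; simp [emb]
    · funext ω; simp [emb, hT0]

lemma emb_mem {M T j : ℕ} {z : Fin N → ℤ} (hz : Within M z) (k : Fin N) {q : Idx N j → ℝ}
    (hq : q ∈ tower N M T j) : emb T z k q ∈ tower N M T (j + 1) := by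
  classical
  simp only [tower, mem_image, mem_product, mem_univ, and_true, mem_grid]
  exact ⟨((z, k), q), ⟨hz, hq⟩, rfl⟩

lemma gpt_mem (hN : 0 < N) {M T j : ℕ} (hT : 0 < T) (hTM : T ≤ M) {z : Fin N → ℤ}
    (hz : Within M z) : gpt j T z ∈ tower N M T (j + 1) := by
  have := emb_mem hz ⟨0, hN⟩ (zero_one_mem hN hT hTM j).1
  rwa [emb_zero] at this

lemma gpt_sub (j T : ℕ) (x y : Fin N → ℤ) : gpt j T x - gpt j T y = gpt j T (x - y) := by
  funext ω; simp [gpt]; ring

/-- `f` has distortion `D` on `X`. -/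
def BiLip {ι : Type*} [Fintype ι] (p D : ℝ) (X : Finset (ι → ℝ))
    (f : (ι → ℝ) → Fin d → ℝ) : Prop :=
  ∀ x ∈ X, ∀ y ∈ X, nm p (x - y) ≤ nm p (f x - f y) ∧ nm p (f x - f y) ≤ D * nm p (x - y)

/-- The excess of the base pair over the threshold `D` is linear in the number of levels. -/
theorem exc_tower (hp : 1 ≤ p) (hp2 : p ≠ 2) (hN : 0 < N) {D δ e₁ e₂ e₃ e₄ γ : ℝ} (hD : 0 ≤ D)
    (hδ : 0 ≤ δ) (S : Scales) (hS : S.Fits N p D δ e₁ e₂ e₃ e₄) (hγ0 : 0 ≤ γ)
    (hγ : 72 * (6 * δ / |p - 2|) ^ (1 / p) + e₁ + e₄ ≤ γ) (j : ℕ)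
    (f : (Idx N j → ℝ) → Fin d → ℝ) (hf : BiLip p D (tower N S.M S.T j) f) :
    exc p D (f 1 - f 0) ≤ j * γ * ((N : ℝ) ^ j) ^ (1 / p) := by
  have hTM : S.T ≤ S.M := by have := hS.hM; omega
  induction j with
  | zero =>
    obtain ⟨h0, h1⟩ := zero_one_mem hN hS.hT hTM 0
    have hup := (hf 1 h1 0 h0).2
    have hone : nm p ((1 : Idx N 0 → ℝ) - 0) = 1 := by simp [nm]
    rw [hone, mul_one] at hup
    have : exc p D (f 1 - f 0) = 0 := by
      have : (fun c => max (|(f 1 - f 0) c| - D) 0) = (0 : Fin d → ℝ) := funext fun c => by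
        have := abs_le_nm hp (f 1 - f 0) c
        simp only [Pi.zero_apply, max_eq_right_iff]
        linarith
      rw [exc, this, nm_zero hp]
    simp [this]
  | succ j ih =>
    set h := ((N : ℝ) ^ j) ^ (1 / p) with hh
    have hh0 : 0 < h := by positivity
    have hT : (0 : ℝ) < S.T := by exact_mod_cast hS.hT
    let g : (Fin N → ℤ) → Fin d → ℝ := fun z => ((S.T : ℝ) / h) • f (gpt j S.T z)
    have hg : GridMap p D S.M g := by
      constructor <;> intro x y hx hy
      all_goals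
        have hb := hf _ (gpt_mem hN hS.hT hTM hx) _ (gpt_mem hN hS.hT hTM hy)
        rw [gpt_sub, nm_gpt hp, ← hh] at hb
        rw [show g x - g y = ((S.T : ℝ) / h) • (f (gpt j S.T x) - f (gpt j S.T y)) by
          simp [g, smul_sub], nm_smul hp, abs_of_pos (by positivity)]
      · calc znm p (x - y) = (S.T : ℝ) / h * (h / S.T * znm p (x - y)) := by field_simp
          _ ≤ _ := by gcongr; exact hb.1
      · calc (S.T : ℝ) / h * nm p (f (gpt j S.T x) - f (gpt j S.T y))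
            ≤ (S.T : ℝ) / h * (D * (h / S.T * znm p (x - y))) := by gcongr; exact hb.2
          _ = _ := by field_simp
    have hedge : ∀ k z, Within S.M z → Within S.M (z + Pi.single k 1) →
        exc p (h⁻¹ * D) (g (z + Pi.single k 1) - g z) ≤ j * γ := by
      intro k z hz _
      let φ : (Idx N j → ℝ) → Fin d → ℝ := fun q => (S.T : ℝ) • f (emb S.T z k q)
      have hφ : BiLip p D (tower N S.M S.T j) φ := by
        intro q hq q' hq'
        have hb := hf _ (emb_mem hz k hq) _ (emb_mem hz k hq')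
        rw [nm_emb_sub hp] at hb
        rw [show φ q - φ q' = (S.T : ℝ) • (f (emb S.T z k q) - f (emb S.T z k q')) by
          simp [φ, smul_sub], nm_smul hp, abs_of_pos hT]
        constructor
        · calc nm p (q - q') = (S.T : ℝ) * ((S.T : ℝ)⁻¹ * nm p (q - q')) := by field_simp
            _ ≤ _ := by gcongr; exact hb.1
        · calc (S.T : ℝ) * nm p (f (emb S.T z k q) - f (emb S.T z k q'))
              ≤ (S.T : ℝ) * (D * ((S.T : ℝ)⁻¹ * nm p (q - q'))) := by gcongr; exact hb.2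
            _ = _ := by field_simp
      have h1 := ih φ hφ
      rw [show g (z + Pi.single k 1) - g z = h⁻¹ • (φ 1 - φ 0) by
        simp only [g, φ, emb_one, emb_zero, smul_sub, smul_smul, div_eq_inv_mul],
        exc_smul hp (by positivity), inv_mul_le_iff₀ hh0]
      linarith
    have h2 := exc_main hp hD hδ hg hS hp2 hN (mul_nonneg (Nat.cast_nonneg j) hγ0) hedge
    have e1 : gpt j S.T (fun _ : Fin N => (S.T : ℤ)) = 1 := by funext ω; simp [gpt, hT.ne']
    have e0 : gpt j S.T (0 : Fin N → ℤ) = 0 := by funext ω; simp [gpt]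
    rw [show (S.T : ℝ)⁻¹ • (g (fun _ => (S.T : ℤ)) - g 0) = h⁻¹ • (f 1 - f 0) by
      simp only [g, e1, e0, ← smul_sub, smul_smul]; congr 1; field_simp,
      exc_smul hp (by positivity), inv_mul_le_iff₀ hh0] at h2
    refine h2.trans ?_
    rw [pow_succ', Real.mul_rpow (Nat.cast_nonneg _) (by positivity), ← hh]
    push_cast
    have hN0 : 0 ≤ (N : ℝ) ^ (1 / p) := by positivity
    nlinarith [mul_le_mul_of_nonneg_left hγ (mul_nonneg hh0.le hN0)]

/-- The dimension bound for the nested grids. -/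
theorem dim_bound (hp : 1 ≤ p) (hp2 : p ≠ 2) (hN : 0 < N) {D δ e₁ e₂ e₃ e₄ γ : ℝ} (hD : 0 ≤ D)
    (hδ : 0 ≤ δ) (S : Scales) (hS : S.Fits N p D δ e₁ e₂ e₃ e₄) (hγ0 : 0 ≤ γ)
    (hγ : 72 * (6 * δ / |p - 2|) ^ (1 / p) + e₁ + e₄ ≤ γ) {j : ℕ} (hj : (j : ℝ) * γ ≤ 1 / 2)
    (f : (Idx N j → ℝ) → Fin d → ℝ) (hf : BiLip p D (tower N S.M S.T j) f) :
    (N : ℝ) ^ j ≤ (2 * D) ^ p * d := by
  have hp0 : (0 : ℝ) < p := by linarith
  have hTM : S.T ≤ S.M := by have := hS.hM; omega
  obtain ⟨h0, h1⟩ := zero_one_mem hN hS.hT hTM j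
  set h := ((N : ℝ) ^ j) ^ (1 / p) with hh
  have hone : nm p ((1 : Idx N j → ℝ) - 0) = h := by simp [nm, hh]
  have hlo := (hf 1 h1 0 h0).1
  rw [hone] at hlo
  have hexc := exc_tower hp hp2 hN hD hδ S hS hγ0 hγ j f hf
  rw [← hh] at hexc
  have hconst : nm p (fun _ : Fin d => D) = (d : ℝ) ^ (1 / p) * D := by
    rw [nm]
    simp only [sum_const, card_univ, Fintype.card_fin, nsmul_eq_mul, abs_of_nonneg hD]
    rw [Real.mul_rpow (Nat.cast_nonneg _) (by positivity), ← Real.rpow_mul hD,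
      mul_one_div_cancel hp0.ne', Real.rpow_one]
  have hsplit : nm p (f 1 - f 0) ≤ (d : ℝ) ^ (1 / p) * D + exc p D (f 1 - f 0) := by
    rw [← hconst]
    refine le_trans (nm_mono hp (w := (fun _ => D) + fun c => max (|(f 1 - f 0) c| - D) 0)
      fun c => ?_) (nm_add_le hp _ _)
    simp only [Pi.add_apply]
    rw [abs_of_nonneg (add_nonneg hD (le_max_right (|(f 1 - f 0) c| - D) 0))]
    linarith [le_max_left (|(f 1 - f 0) c| - D) 0]
  have hh0 : 0 ≤ h := by positivity
  have key : h ≤ 2 * D * (d : ℝ) ^ (1 / p) := by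
    nlinarith [mul_le_mul_of_nonneg_right hj hh0]
  have := Real.rpow_le_rpow hh0 key hp0.le
  rw [Real.mul_rpow (by positivity) (by positivity), hh, ← Real.rpow_mul (by positivity),
    ← Real.rpow_mul (Nat.cast_nonneg _), one_div_mul_cancel hp0.ne', Real.rpow_one,
    Real.rpow_one] at this
  exact this

end Vale.Agent.P249.PolyLower
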